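import Mathlib

/-!
Graphs of bounded independence number split into boundedly many dense parts.
-/

namespace Vale.Agent.P061

open Finset

open scoped Classical in
theorem exists_dense_parts (a : ℕ) :
    ∃ (N : ℕ) (c : ℝ), 0 < N ∧ 0 < c ∧ c ≤ 1 ∧ ∀ (V : Type) [Fintype V] [DecidableEq V]
      (G : SimpleGraph V) (U : Finset V),
      (∀ I ⊆ U, (∀ u ∈ I, ∀ v ∈ I, ¬ G.Adj u v) → I.card ≤ a) →
      ∃ f : V → Fin N, ∀ v ∈ U, c * (((U.filter (fun u => f u = f v)).card : ℝ) - 1) ≤
        (((U.filter (fun u => f u = f v)).filter (fun u => G.Adj v u)).card : ℝ) := by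
  induction a with
  | zero =>
    refine ⟨1, 1, one_pos, one_pos, le_rfl, fun V _ _ G U h => ⟨fun _ => 0, fun v hv => ?_⟩⟩
    have := h {v} (singleton_subset_iff.mpr hv) (by simp)
    simp at this
  | succ a ih =>
    obtain ⟨N, c, hN, hc, hc1, ih⟩ := ih
    set ζ : ℝ := 1 / (4 * (N : ℝ)) with hζ
    set β : ℝ := 1 / (2 * ((a : ℝ) + 1)) with hβ
    have hζ0 : 0 < ζ := by positivity
    have hβ0 : 0 < β := by positivity
    set c' : ℝ := min (1 / 4) (min (c * ζ / 2) (min (β * ζ) (min ζ c))) with hc'
    have hc'0 : 0 < c' := by positivity
    have l1 : c' ≤ 1 / 4 := min_le_left _ _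
    have l2 : c' ≤ c * ζ / 2 := (min_le_right _ _).trans (min_le_left _ _)
    have l3 : c' ≤ β * ζ :=
      ((min_le_right _ _).trans (min_le_right _ _)).trans (min_le_left _ _)
    have l4 : c' ≤ ζ := (((min_le_right _ _).trans (min_le_right _ _)).trans
      (min_le_right _ _)).trans (min_le_left _ _)
    have l5 : c' ≤ c := (((min_le_right _ _).trans (min_le_right _ _)).trans
      (min_le_right _ _)).trans (min_le_right _ _)
    refine ⟨N + N + 4, c', by omega, hc'0, l5.trans hc1, fun V _ _ G U hU => ?_⟩
    by_cases hsmall : U.card < 4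
    · refine ⟨fun v => Fin.natAdd (N + N)
        (if h : v ∈ U then ⟨(U.equivFin ⟨v, h⟩).1, lt_trans (U.equivFin ⟨v, h⟩).2 hsmall⟩ else 0),
        fun v hv => ?_⟩
      set Q := U.filter (fun u => Fin.natAdd (N + N)
        (if h : u ∈ U then ⟨(U.equivFin ⟨u, h⟩).1, lt_trans (U.equivFin ⟨u, h⟩).2 hsmall⟩ else
          (0 : Fin 4)) = Fin.natAdd (N + N)
        (if h : v ∈ U then ⟨(U.equivFin ⟨v, h⟩).1, lt_trans (U.equivFin ⟨v, h⟩).2 hsmall⟩ else
          (0 : Fin 4))) with hQ
      have hQ1 : Q ⊆ {v} := by
        intro u hu
        rw [hQ, mem_filter] at hu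
        obtain ⟨huU, he⟩ := hu
        rw [dif_pos huU, dif_pos hv] at he
        have := congrArg Fin.val he
        simp only [Fin.val_natAdd] at this
        have h2 : U.equivFin ⟨u, huU⟩ = U.equivFin ⟨v, hv⟩ := Fin.ext (by omega)
        simpa using congrArg Subtype.val (U.equivFin.injective h2)
      have hQc : (Q.card : ℝ) ≤ 1 := by
        exact_mod_cast (card_le_card hQ1).trans (by simp)
      exact le_trans (mul_nonpos_of_nonneg_of_nonpos hc'0.le (by linarith)) (Nat.cast_nonneg _)
    push Not at hsmall
    set n : ℝ := (U.card : ℝ) with hn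
    have hn4 : 4 ≤ n := by rw [hn]; exact_mod_cast hsmall
    by_cases hall : ∀ v ∈ U, n / 4 ≤ ((U.filter (fun u => G.Adj v u)).card : ℝ)
    · refine ⟨fun _ => ⟨0, by omega⟩, fun v hv => ?_⟩
      rw [Finset.filter_true_of_mem (p := fun u => ((⟨0, _⟩ : Fin (N + N + 4)) = ⟨0, _⟩))
        (fun x _ => rfl)]
      refine le_trans ?_ (hall v hv)
      rw [← hn]
      nlinarith
    push Not at hall
    obtain ⟨v0, hv0, hdeg0⟩ := hall
    set B : Finset V := U.filter (fun u => u ≠ v0 ∧ ¬ G.Adj v0 u) with hB
    obtain ⟨g, hg⟩ := ih V G B (fun I hI hindep => by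
      have h0 : v0 ∉ I := fun h => (mem_filter.mp (hI h)).2.1 rfl
      have := hU (insert v0 I)
        (insert_subset hv0 (fun x hx => (mem_filter.mp (hI hx)).1)) (by
          intro u hu v hv
          rw [Finset.mem_insert] at hu hv
          rcases hu with rfl | hu <;> rcases hv with rfl | hv
          · exact G.irrefl
          · exact (mem_filter.mp (hI hv)).2.2
          · exact fun h => (mem_filter.mp (hI hu)).2.2 h.symm
          · exact hindep u hu v hv)
      rw [card_insert_of_notMem h0] at this
      omega)
    let P : Fin N → Finset V := fun i => B.filter (fun u => g u = i)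
    let big : Fin N → Prop := fun i => ζ * n ≤ ((P i).card : ℝ)
    have hBbig : n / 2 ≤ (B.card : ℝ) := by
      have hsub : U ⊆ B ∪ insert v0 (U.filter (fun u => G.Adj v0 u)) := by
        intro u hu
        by_cases h1 : u = v0
        · simp [h1]
        · by_cases h2 : G.Adj v0 u <;> simp [hB, hu, h1, h2]
      have h1 := (card_le_card hsub).trans ((card_union_le _ _).trans
        (Nat.add_le_add_left (card_insert_le _ _) _))
      have h1' : n ≤ (B.card : ℝ) + (((U.filter (fun u => G.Adj v0 u)).card : ℝ) + 1) := by
        rw [hn]; exact_mod_cast h1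
      linarith
    obtain ⟨i0, hi0⟩ : ∃ i, big i := by
      by_contra h
      push Not at h
      have hs : (B.card : ℝ) = ∑ i, ((P i).card : ℝ) := by
        rw [card_eq_sum_card_fiberwise (f := g) (t := univ) (fun x _ => mem_univ _)]
        push_cast
        rfl
      have h2 : ∑ i, ((P i).card : ℝ) ≤ ∑ _i : Fin N, ζ * n :=
        sum_le_sum fun i _ => (not_le.mp (h i)).le
      have h3 : ∑ _i : Fin N, ζ * n = n / 4 := by
        simp [hζ]; field_simp
      linarith
    let inbig : V → Prop := fun v => v ∈ B ∧ big (g v)
    let canJoin : V → Prop := fun v =>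
      ∃ i, big i ∧ β * ((P i).card : ℝ) ≤ (((P i).filter (fun u => G.Adj v u)).card : ℝ)
    set A : Finset V := U.filter (fun v => ¬ inbig v ∧ ¬ canJoin v) with hA
    obtain ⟨g2, hg2⟩ := ih V G A (fun I hI hindep => by
      by_contra hlt
      push Not at hlt
      obtain ⟨I', hI'I, hcard⟩ := exists_subset_card_eq (show a + 1 ≤ I.card by omega)
      have hbad : ∀ u ∈ I', (((P i0).filter (fun x => G.Adj u x)).card : ℝ) <
          β * ((P i0).card : ℝ) := fun u hu => by
        by_contra hc2
        exact (mem_filter.mp (hI (hI'I hu))).2.2 ⟨i0, hi0, not_lt.mp hc2⟩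
      obtain ⟨x, hxP, hx⟩ : ∃ x ∈ P i0, ∀ u ∈ I', ¬ G.Adj u x := by
        by_contra hno
        push Not at hno
        have hsub : P i0 ⊆ I'.biUnion (fun u => (P i0).filter (fun x => G.Adj u x)) := fun x hx => by
          obtain ⟨u, hu, hux⟩ := hno x hx
          exact mem_biUnion.mpr ⟨u, hu, mem_filter.mpr ⟨hx, hux⟩⟩
        have h1 : ((P i0).card : ℝ) ≤
            ∑ u ∈ I', (((P i0).filter (fun x => G.Adj u x)).card : ℝ) := by
          exact_mod_cast (card_le_card hsub).trans card_biUnion_le
        have h2 : ∑ u ∈ I', (((P i0).filter (fun x => G.Adj u x)).card : ℝ) ≤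
            ((a : ℝ) + 1) * (β * ((P i0).card : ℝ)) := by
          refine (sum_le_sum fun u hu => (hbad u hu).le).trans (le_of_eq ?_)
          simp [hcard]
        have h3 : ((a : ℝ) + 1) * (β * ((P i0).card : ℝ)) = ((P i0).card : ℝ) / 2 := by
          rw [hβ]; field_simp
        have h4 : 0 < ((P i0).card : ℝ) := lt_of_lt_of_le (by positivity) hi0
        linarith
      have hxB := (mem_filter.mp hxP)
      have hxI : x ∉ I' := fun h =>
        (mem_filter.mp (hI (hI'I h))).2.1 ⟨hxB.1, hxB.2 ▸ hi0⟩
      have := hU (insert x I') (insert_subset (mem_filter.mp hxB.1).1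
        (fun y hy => (mem_filter.mp (hI (hI'I hy))).1)) (by
          intro u hu v hv
          rw [Finset.mem_insert] at hu hv
          rcases hu with rfl | hu <;> rcases hv with rfl | hv
          · exact G.irrefl
          · exact fun h => hx v hv h.symm
          · exact hx u hu
          · exact hindep u (hI'I hu) v (hI'I hv))
      rw [card_insert_of_notMem hxI, hcard] at this
      omega)
    let F : V → Fin (N + N + 4) := fun v =>
      if inbig v then Fin.castAdd 4 (Fin.castAdd N (g v))
      else if h : canJoin v then Fin.castAdd 4 (Fin.castAdd N h.choose)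
      else Fin.castAdd 4 (Fin.natAdd N (g2 v))
    refine ⟨F, fun v hv => ?_⟩
    set Q := U.filter (fun u => F u = F v) with hQ
    have hQn : (Q.card : ℝ) ≤ n := by rw [hn]; exact_mod_cast card_le_card (filter_subset _ _)
    have hPQ : ∀ i, big i → F v = Fin.castAdd 4 (Fin.castAdd N i) → P i ⊆ Q := by
      intro i hi hFi u hu
      have hu' := mem_filter.mp hu
      have hub : inbig u := ⟨hu'.1, hu'.2 ▸ hi⟩
      refine mem_filter.mpr ⟨(mem_filter.mp hu'.1).1, ?_⟩
      rw [hFi]
      simp only [F, if_pos hub, hu'.2]
    by_cases hb : inbig v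
    · have hFv : F v = Fin.castAdd 4 (Fin.castAdd N (g v)) := if_pos hb
      have hsub := hPQ _ hb.2 hFv
      have hmono : (((P (g v)).filter (fun u => G.Adj v u)).card : ℝ) ≤
          ((Q.filter (fun u => G.Adj v u)).card : ℝ) := by
        exact_mod_cast card_le_card (filter_subset_filter _ hsub)
      have hgv := hg v hb.1
      change c * (((P (g v)).card : ℝ) - 1) ≤ _ at hgv
      by_cases h2 : 2 ≤ (P (g v)).card
      · have h2' : (2 : ℝ) ≤ ((P (g v)).card : ℝ) := by exact_mod_cast h2
        have hbv : ζ * n ≤ ((P (g v)).card : ℝ) := hb.2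
        have : c * ζ / 2 * n ≤ c * (((P (g v)).card : ℝ) - 1) := by nlinarith
        have : c' * ((Q.card : ℝ) - 1) ≤ c * ζ / 2 * n := by
          refine le_trans (mul_le_mul_of_nonneg_left
            (show (Q.card : ℝ) - 1 ≤ n by linarith) hc'0.le) ?_
          exact mul_le_mul_of_nonneg_right l2 (by linarith)
        linarith
      · -- the piece is the single vertex `v`
        have hPv : P (g v) = {v} := by
          refine (eq_of_subset_of_card_le ?_ ?_).symm
          · exact singleton_subset_iff.mpr (mem_filter.mpr ⟨hb.1, rfl⟩)
          · simp; omega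
        by_cases hQ1 : Q.card ≤ 1
        · have : (Q.card : ℝ) ≤ 1 := by exact_mod_cast hQ1
          exact le_trans (mul_nonpos_of_nonneg_of_nonpos hc'0.le (by linarith)) (Nat.cast_nonneg _)
        · obtain ⟨u, huQ, huv⟩ : ∃ u ∈ Q, u ≠ v := by
            by_contra h
            push Not at h
            exact hQ1 (card_le_one.mpr fun x hx y hy => by rw [h x hx, h y hy])
          have hu := mem_filter.mp huQ
          have huF := hu.2
          rw [hFv] at huF
          have hadj : G.Adj v u := by
            by_cases hub : inbig u
            · simp only [F, if_pos hub] at huF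
              have h3 : g u = g v := Fin.castAdd_injective _ _ (Fin.castAdd_injective _ _ huF)
              have : u ∈ P (g v) := mem_filter.mpr ⟨hub.1, h3⟩
              rw [hPv, mem_singleton] at this
              exact absurd this huv
            · by_cases hju : canJoin u
              · simp only [F, if_neg hub, dif_pos hju] at huF
                have h3 := Fin.castAdd_injective _ _ (Fin.castAdd_injective _ _ huF)
                have h4 := hju.choose_spec.2
                rw [h3, hPv] at h4
                by_contra hna
                have : ({v} : Finset V).filter (fun x => G.Adj u x) = ∅ := by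
                  rw [filter_eq_empty_iff]
                  intro x hx
                  rw [mem_singleton] at hx
                  subst hx
                  exact fun h => hna h.symm
                rw [this] at h4
                simp at h4
                linarith
              · simp only [F, if_neg hub, dif_neg hju] at huF
                have := congrArg Fin.val huF
                simp at this
                omega
          have h1 : (1 : ℝ) ≤ ((Q.filter (fun x => G.Adj v x)).card : ℝ) := by
            exact_mod_cast card_pos.mpr ⟨u, mem_filter.mpr ⟨huQ, hadj⟩⟩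
          have h5 : ζ * n ≤ 1 := by
            have := hb.2
            change ζ * n ≤ ((P (g v)).card : ℝ) at this
            rw [hPv] at this
            simpa using this
          refine le_trans ?_ h1
          have : c' * n ≤ 1 := le_trans (mul_le_mul_of_nonneg_right l4 (by linarith)) h5
          nlinarith
    · by_cases hj : canJoin v
      · have hFv : F v = Fin.castAdd 4 (Fin.castAdd N hj.choose) := by
          simp only [F, if_neg hb, dif_pos hj]
        have hsub := hPQ _ hj.choose_spec.1 hFv
        have hmono : (((P hj.choose).filter (fun u => G.Adj v u)).card : ℝ) ≤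
            ((Q.filter (fun u => G.Adj v u)).card : ℝ) := by
          exact_mod_cast card_le_card (filter_subset_filter _ hsub)
        have h1 := hj.choose_spec.2
        have h2 : β * ζ * n ≤ β * ((P hj.choose).card : ℝ) := by
          rw [mul_assoc]; exact mul_le_mul_of_nonneg_left hj.choose_spec.1 hβ0.le
        have : c' * ((Q.card : ℝ) - 1) ≤ β * ζ * n := by
          refine le_trans (mul_le_mul_of_nonneg_left
            (show (Q.card : ℝ) - 1 ≤ n by linarith) hc'0.le) ?_
          exact mul_le_mul_of_nonneg_right l3 (by linarith)
        linarith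
      · have hvA : v ∈ A := mem_filter.mpr ⟨hv, hb, hj⟩
        have hFv : F v = Fin.castAdd 4 (Fin.natAdd N (g2 v)) := by
          simp only [F, if_neg hb, dif_neg hj]
        have hQA : Q = A.filter (fun u => g2 u = g2 v) := by
          ext u
          simp only [hQ, mem_filter, hA]
          rw [hFv]
          constructor
          · rintro ⟨hu, he⟩
            by_cases hub : inbig u
            · simp only [F, if_pos hub] at he
              have := congrArg Fin.val he
              simp at this
              omega
            · by_cases hju : canJoin u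
              · simp only [F, if_neg hub, dif_pos hju] at he
                have := congrArg Fin.val he
                simp at this
                omega
              · simp only [F, if_neg hub, dif_neg hju] at he
                exact ⟨⟨hu, hub, hju⟩, Fin.natAdd_injective _ _ (Fin.castAdd_injective _ _ he)⟩
          · rintro ⟨⟨hu, hub, hju⟩, he⟩
            exact ⟨hu, by simp only [F, if_neg hub, dif_neg hju, he]⟩
        rw [hQA]
        refine le_trans ?_ (hg2 v hvA)
        refine mul_le_mul_of_nonneg_right l5 ?_
        have : (1 : ℝ) ≤ ((A.filter (fun u => g2 u = g2 v)).card : ℝ) := by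
          exact_mod_cast card_pos.mpr
            ⟨v, (mem_filter.mpr ⟨hvA, rfl⟩ : v ∈ A.filter (fun u => g2 u = g2 v))⟩
        linarith

end Vale.Agent.P061
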