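import Mathlib

/-!
Degree-bounded spanning forests with few components, and linking them.
-/

namespace Vale.Agent.P061

open Finset SimpleGraph

variable {V : Type} [Fintype V]

open scoped Classical in
/-- Number of neighbours. -/
noncomputable def nbr (G : SimpleGraph V) (v : V) : ℕ := (univ.filter (fun u => G.Adj v u)).card

theorem nbr_sup_edge (F : SimpleGraph V) {u w : V} (hne : u ≠ w) (hnadj : ¬ F.Adj u w) (v : V)
    [DecidableEq V] :
    nbr (F ⊔ edge u w) v = nbr F v + (if v = u then 1 else 0) + (if v = w then 1 else 0) := by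
  classical
  unfold nbr
  have hadj : ∀ x y, (F ⊔ edge u w).Adj x y ↔ F.Adj x y ∨ (x = u ∧ y = w) ∨ (x = w ∧ y = u) := by
    intro x y
    simp only [sup_adj, edge_adj]
    constructor
    · rintro (h | ⟨h, -⟩)
      · exact Or.inl h
      · tauto
    · rintro (h | ⟨rfl, rfl⟩ | ⟨rfl, rfl⟩)
      · exact Or.inl h
      · exact Or.inr ⟨by tauto, hne⟩
      · exact Or.inr ⟨by tauto, hne.symm⟩
  simp only [hadj]
  by_cases hu : v = u
  · subst hu
    have : univ.filter (fun y => F.Adj v y ∨ (v = v ∧ y = w) ∨ (v = w ∧ y = v)) =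
        insert w (univ.filter (fun y => F.Adj v y)) := by
      ext y; simp [hne]; tauto
    rw [this, card_insert_of_notMem (by simp [hnadj])]
    simp [hne]
  · by_cases hw : v = w
    · subst hw
      have : univ.filter (fun y => F.Adj v y ∨ (v = u ∧ y = v) ∨ (v = v ∧ y = u)) =
          insert u (univ.filter (fun y => F.Adj v y)) := by
        ext y; simp [hu]; tauto
      rw [this, card_insert_of_notMem (by simpa using fun h => hnadj h.symm)]
      simp [hu]
    · simp [hu, hw]

/-- A graph of large minimum degree has a spanning subgraph of bounded maximum degree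
with boundedly many components. -/
theorem exists_bounded_forest [DecidableEq V] (H : SimpleGraph V) (δ : ℝ) (hδ : 0 < δ)
    (D : ℕ) (hD : 4 ≤ δ * (D : ℝ)) (hD2 : 2 ≤ D)
    (hH : ∀ v, δ * (Fintype.card V : ℝ) ≤ (nbr H v : ℝ)) :
    ∃ F ≤ H, (∀ v, nbr F v ≤ D) ∧
      ∃ R : Finset V, (R.card : ℝ) ≤ 2 / δ ∧ ∀ v, ∃ r ∈ R, F.Reachable r v := by
  classical
  rcases isEmpty_or_nonempty V with hV | hV
  · exact ⟨⊥, bot_le, fun v => (hV.false v).elim, ∅, by simp; positivity,
      fun v => (hV.false v).elim⟩
  set P : SimpleGraph V → Prop := fun F => F ≤ H ∧ (∀ v, nbr F v ≤ D) ∧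
    ∀ S : Finset V, S.Nonempty → (∀ x ∈ S, ∀ y, F.Adj x y → y ∈ S) →
      (∑ v ∈ S, nbr F v) + 2 ≤ 2 * S.card with hP
  have hbot : P ⊥ := by
    refine ⟨bot_le, fun v => by simp [nbr], fun S hS _ => ?_⟩
    have : 0 < S.card := card_pos.mpr hS
    simp [nbr]
    omega
  obtain ⟨F, hF, hmax⟩ := (univ.filter P).exists_max_image (fun F => ∑ v, nbr F v)
    ⟨⊥, mem_filter.mpr ⟨mem_univ _, hbot⟩⟩
  obtain ⟨hFH, hdeg, hforest⟩ := (mem_filter.mp hF).2
  have hkey : ∀ u w, H.Adj u w → nbr F u < D → nbr F w < D → F.Reachable u w := by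
    intro u w huw hu hw
    by_contra hreach
    have hne : u ≠ w := huw.ne
    have hnadj : ¬ F.Adj u w := fun h => hreach h.reachable
    have hnbr := nbr_sup_edge F hne hnadj
    have hP' : P (F ⊔ edge u w) := by
      refine ⟨sup_le hFH (by rw [edge_le_iff]; exact Or.inr huw), fun v => ?_, fun S hS hcl => ?_⟩
      · rw [hnbr]
        by_cases h1 : v = u
        · subst h1; simp [hne]; omega
        · by_cases h2 : v = w
          · subst h2; simp [h1]; omega
          · simp [h1, h2]; exact hdeg v
      · have hclF : ∀ x ∈ S, ∀ y, F.Adj x y → y ∈ S := fun x hx y h => hcl x hx y (Or.inl h)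
        simp only [hnbr, sum_add_distrib, Finset.sum_ite_eq']
        have huwS : u ∈ S ↔ w ∈ S := by
          constructor <;> intro h
          · exact hcl u h w (Or.inr (by rw [edge_adj]; tauto))
          · exact hcl w h u (Or.inr (by rw [edge_adj]; tauto))
        by_cases hus : u ∈ S
        · set A : Finset V := S.filter (fun x => F.Reachable u x) with hA
          have hA1 := hforest A ⟨u, mem_filter.mpr ⟨hus, Reachable.refl u⟩⟩ (fun x hx y h => by
            rw [hA, mem_filter] at hx ⊢
            exact ⟨hclF x hx.1 y h, hx.2.trans h.reachable⟩)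
          have hB1 := hforest (S \ A) ⟨w, mem_sdiff.mpr ⟨huwS.mp hus,
              fun h => hreach (mem_filter.mp h).2⟩⟩ (fun x hx y h => by
            rw [mem_sdiff] at hx ⊢
            refine ⟨hclF x hx.1 y h, fun hy => hx.2 ?_⟩
            rw [hA, mem_filter] at hy ⊢
            exact ⟨hx.1, hy.2.trans h.symm.reachable⟩)
          have hAS : A ⊆ S := filter_subset _ _
          have e1 := sum_sdiff (f := fun v => nbr F v) hAS
          have e2 := card_sdiff_add_card_eq_card hAS
          simp only [hus, huwS.mp hus, if_true]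
          omega
        · have hws : w ∉ S := fun h => hus (huwS.mpr h)
          simp only [hus, hws, if_false]
          simpa using hforest S hS hclF
    have := hmax _ (mem_filter.mpr ⟨mem_univ _, hP'⟩)
    simp only [hnbr, sum_add_distrib, Finset.sum_ite_eq', mem_univ, if_true] at this
    omega
  set n : ℝ := (Fintype.card V : ℝ) with hn
  -- few saturated vertices
  set Sat : Finset V := univ.filter (fun v => D ≤ nbr F v) with hSat
  have hsat : (Sat.card : ℝ) ≤ δ * n / 2 := by
    have h1 : Sat.card * D ≤ 2 * Fintype.card V := by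
      have h2 := hforest univ univ_nonempty (fun _ _ _ _ => mem_univ _)
      have h3 : Sat.card * D ≤ ∑ v ∈ Sat, nbr F v := by
        rw [← smul_eq_mul]
        exact card_nsmul_le_sum _ _ _ fun v hv => (mem_filter.mp hv).2
      have h4 : ∑ v ∈ Sat, nbr F v ≤ ∑ v, nbr F v :=
        sum_le_sum_of_subset (subset_univ _)
      rw [card_univ] at h2
      omega
    have h1' : (Sat.card : ℝ) * (D : ℝ) ≤ 2 * n := by rw [hn]; exact_mod_cast h1
    have h0 : (0 : ℝ) ≤ (Sat.card : ℝ) := Nat.cast_nonneg _
    nlinarith [mul_le_mul_of_nonneg_left hD h0, mul_le_mul_of_nonneg_left h1' hδ.le]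
  -- every component is large
  have hbig : ∀ v, δ * n / 2 ≤ ((univ.filter (fun x => F.Reachable v x)).card : ℝ) := by
    intro v
    set C : Finset V := univ.filter (fun x => F.Reachable v x) with hC
    obtain ⟨u, huC, hu⟩ : ∃ u ∈ C, nbr F u < D := by
      by_contra h
      push Not at h
      have h1 := hforest C ⟨v, mem_filter.mpr ⟨mem_univ _, Reachable.refl v⟩⟩ (fun x hx y hy => by
        rw [hC, mem_filter] at hx ⊢
        exact ⟨mem_univ _, hx.2.trans hy.reachable⟩)
      have h2 : C.card * 2 ≤ ∑ x ∈ C, nbr F x := by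
        rw [← smul_eq_mul]
        exact card_nsmul_le_sum _ _ _ fun x hx => le_trans hD2 (h x hx)
      omega
    have hsub : univ.filter (fun x => H.Adj u x) ⊆ C ∪ Sat := by
      intro x hx
      rw [mem_filter] at hx
      rw [Finset.mem_union]
      by_cases hxD : nbr F x < D
      · refine Or.inl (mem_filter.mpr ⟨mem_univ _, (mem_filter.mp huC).2.trans ?_⟩)
        exact hkey u x hx.2 hu hxD
      · exact Or.inr (mem_filter.mpr ⟨mem_univ _, not_lt.mp hxD⟩)
    have h1 : nbr H u ≤ C.card + Sat.card := (card_le_card hsub).trans (card_union_le _ _)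
    have h1' : (nbr H u : ℝ) ≤ (C.card : ℝ) + (Sat.card : ℝ) := by exact_mod_cast h1
    linarith [hH u]
  refine ⟨F, hFH, hdeg, univ.image (fun C : F.ConnectedComponent => C.out), ?_, fun v => ?_⟩
  · have hcard : ((univ.image (fun C : F.ConnectedComponent => C.out)).card : ℝ) ≤
        (Fintype.card F.ConnectedComponent : ℝ) := by
      exact_mod_cast card_image_le.trans (le_of_eq card_univ)
    refine hcard.trans ?_
    have hsum := card_eq_sum_card_fiberwise (f := F.connectedComponentMk) (s := univ) (t := univ)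
      (fun x _ => mem_univ _)
    have hfib : ∀ C : F.ConnectedComponent,
        δ * n / 2 ≤ ((univ.filter (fun x => F.connectedComponentMk x = C)).card : ℝ) := by
      intro C
      refine C.ind (fun v => (hbig v).trans (le_of_eq ?_))
      congr 2
      ext x
      simp [reachable_comm]
    have hn0 : 0 < n := by rw [hn]; exact_mod_cast Fintype.card_pos
    have : (Fintype.card F.ConnectedComponent : ℝ) * (δ * n / 2) ≤ n := by
      calc (Fintype.card F.ConnectedComponent : ℝ) * (δ * n / 2)
          = ∑ _C : F.ConnectedComponent, δ * n / 2 := by simp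
        _ ≤ _ := sum_le_sum fun C _ => hfib C
        _ = n := by rw [hn, ← card_univ, hsum]; push_cast; rfl
    rw [le_div_iff₀ hδ]
    have h2 : (Fintype.card F.ConnectedComponent : ℝ) * δ * n ≤ 2 * n := by linarith
    exact le_of_mul_le_mul_right h2 hn0
  · refine ⟨(F.connectedComponentMk v).out, mem_image_of_mem _ (mem_univ _), ?_⟩
    exact ConnectedComponent.exact (Quot.out_eq _)

/-- Number of oriented edges leaving a set. -/
noncomputable def crossCard (L : SimpleGraph V) (S : Finset V) : ℕ :=
  Set.ncard {e : V × V | e.1 ∈ S ∧ e.2 ∉ S ∧ L.Adj e.1 e.2}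

theorem crossCard_mono {L L' : SimpleGraph V} (h : L ≤ L') (S : Finset V) :
    crossCard L S ≤ crossCard L' S :=
  Set.ncard_le_ncard (fun _ he => ⟨he.1, he.2.1, h he.2.2⟩) (Set.toFinite _)

theorem crossCard_sup_edge (L : SimpleGraph V) (x y : V) (S : Finset V) :
    crossCard (L ⊔ edge x y) S ≤ crossCard L S + 1 := by
  classical
  unfold crossCard
  refine le_trans (Set.ncard_le_ncard
    (t := {e : V × V | e.1 ∈ S ∧ e.2 ∉ S ∧ L.Adj e.1 e.2} ∪
      {if x ∈ S then (x, y) else (y, x)}) ?_ (Set.toFinite _)) ?_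
  · rintro ⟨p, q⟩ ⟨hp, hq, h⟩
    rcases h with h | h
    · exact Or.inl ⟨hp, hq, h⟩
    · right
      rw [edge_adj] at h
      rcases h.1 with ⟨rfl, rfl⟩ | ⟨rfl, rfl⟩
      · simp [show p ∈ S from hp]
      · simp [show q ∉ S from hq]
  · refine (Set.ncard_union_le _ _).trans ?_
    simp

/-- A graph with few components inside a connected graph is linked by few edges. -/
theorem exists_linked (G : SimpleGraph V) (hG : G.Connected) :
    ∀ (R : Finset V) (L : SimpleGraph V), L ≤ G → (∀ v, ∃ r ∈ R, L.Reachable r v) →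
      ∃ L', L' ≤ G ∧ L'.Connected ∧ ∀ S, crossCard L' S ≤ crossCard L S + R.card := by
  classical
  intro R
  induction R using Finset.strongInduction with
  | H R ih =>
    intro L hL hR
    by_cases hc : L.Connected
    · exact ⟨L, hL, hc, fun S => Nat.le_add_right _ _⟩
    have : ∃ x y, G.Adj x y ∧ ¬ L.Reachable x y := by
      by_contra h
      push Not at h
      haveI := hG.nonempty
      refine hc ⟨fun u v => ?_⟩
      obtain ⟨p⟩ := hG.preconnected u v
      induction p with
      | nil => exact Reachable.refl _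
      | cons hadj _ ihp => exact (h _ _ hadj).trans ihp
    obtain ⟨x, y, hxy, hnr⟩ := this
    obtain ⟨r', hr', hry⟩ := hR y
    obtain ⟨r, hr, hrx⟩ := hR x
    have hrr : r ≠ r' := fun h => hnr (hrx.symm.trans (h ▸ hry))
    have hle : L ⊔ edge x y ≤ G := sup_le hL (by rw [edge_le_iff]; exact Or.inr hxy)
    have hxy' : (L ⊔ edge x y).Adj x y := Or.inr (by rw [edge_adj]; exact ⟨by tauto, hxy.ne⟩)
    obtain ⟨L', h1, h2, h3⟩ := ih (R.erase r') (erase_ssubset hr') (L ⊔ edge x y) hle (fun v => by
      obtain ⟨s, hs, hsv⟩ := hR v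
      by_cases hsr : s = r'
      · refine ⟨r, mem_erase.mpr ⟨hrr, hr⟩, ?_⟩
        subst hsr
        exact ((hrx.mono le_sup_left).trans hxy'.reachable).trans
          ((hry.symm.trans hsv).mono le_sup_left)
      · exact ⟨s, mem_erase.mpr ⟨hsr, hs⟩, hsv.mono le_sup_left⟩)
    refine ⟨L', h1, h2, fun S => ?_⟩
    have := h3 S
    have := crossCard_sup_edge L x y S
    have := card_erase_add_one hr'
    omega

end Vale.Agent.P061
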