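import Mathlib

/-!
Dense weighted graphs have a vertex partition into parts with linear internal
degree and linear internal expansion.
-/

namespace Vale.Agent.P061

open Finset

variable {V : Type} [DecidableEq V]

/-- Total weight between two vertex sets. -/
def wsum (a : V → V → ℝ) (S T : Finset V) : ℝ := ∑ u ∈ S, ∑ v ∈ T, a u v

theorem wsum_comm (a : V → V → ℝ) (hs : ∀ u v, a u v = a v u) (S T : Finset V) :
    wsum a S T = wsum a T S := by
  unfold wsum
  rw [Finset.sum_comm]
  exact sum_congr rfl fun u _ => sum_congr rfl fun v _ => hs v u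

theorem sum_le_card (a : V → V → ℝ) (h1 : ∀ u v, a u v ≤ 1) (v : V) (T : Finset V) :
    ∑ u ∈ T, a v u ≤ (T.card : ℝ) := by
  calc ∑ u ∈ T, a v u ≤ ∑ u ∈ T, (1 : ℝ) := sum_le_sum fun u _ => h1 v u
    _ = _ := by simp

theorem sum_le_sum_sdiff (a : V → V → ℝ) (h0 : ∀ u v, 0 ≤ a u v) (h1 : ∀ u v, a u v ≤ 1)
    (v : V) (S S' B : Finset V) (h : S \ B ⊆ S') :
    ∑ u ∈ S, a v u ≤ (∑ u ∈ S', a v u) + (B.card : ℝ) := by
  have e1 : ∑ u ∈ S \ B, a v u + ∑ u ∈ S ∩ B, a v u = ∑ u ∈ S, a v u := by
    rw [add_comm]; exact sum_inter_add_sum_sdiff S B (fun u => a v u)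
  have e2 : ∑ u ∈ S \ B, a v u ≤ ∑ u ∈ S', a v u :=
    sum_le_sum_of_subset_of_nonneg h fun u _ _ => h0 v u
  have e3 : ∑ u ∈ S ∩ B, a v u ≤ (B.card : ℝ) :=
    (sum_le_card a h1 v _).trans (by exact_mod_cast card_le_card inter_subset_right)
  linarith

/-- A sparse cut of a part can be corrected to a split with large internal degrees. -/
theorem split_part (a : V → V → ℝ) (hs : ∀ u v, a u v = a v u)
    (h0 : ∀ u v, 0 ≤ a u v) (h1 : ∀ u v, a u v ≤ 1)
    (X S : Finset V) (hSX : S ⊆ X) (n d g : ℝ) (hn : (X.card : ℝ) ≤ n)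
    (hd : 0 < d) (hg : 0 ≤ g) (hgd : 16 * g * n ≤ d ^ 2)
    (hdeg : ∀ v ∈ X, d ≤ ∑ u ∈ X, a v u)
    (hle : S.card ≤ (X \ S).card)
    (hbad : wsum a S (X \ S) < g * (S.card : ℝ)) :
    ∃ S' ⊆ X, S'.Nonempty ∧ (X \ S').Nonempty ∧
      (∀ v ∈ S', d / 4 ≤ ∑ u ∈ S', a v u) ∧
      (∀ v ∈ X \ S', d / 4 ≤ ∑ u ∈ X \ S', a v u) ∧
      wsum a S' (X \ S') ≤ 9 * g * n ^ 2 / d := by
  classical
  have hSne : 0 < S.card := by
    rcases Nat.eq_zero_or_pos S.card with h | h
    · rw [card_eq_zero] at h
      subst h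
      simp [wsum] at hbad
    · exact h
  have hSn : (S.card : ℝ) ≤ n := le_trans (by exact_mod_cast card_le_card hSX) hn
  have hSpos : (1 : ℝ) ≤ (S.card : ℝ) := by exact_mod_cast hSne
  obtain ⟨v0, hv0⟩ := card_pos.mp hSne
  have hdn : d ≤ n := ((hdeg v0 (hSX hv0)).trans (sum_le_card a h1 v0 X)).trans hn
  have hn0 : 0 < n := by linarith
  set B : Finset V := X.filter (fun v =>
    (v ∈ S ∧ d / 2 < ∑ u ∈ X \ S, a v u) ∨ (v ∉ S ∧ d / 2 < ∑ u ∈ S, a v u)) with hB
  have hBX : B ⊆ X := filter_subset _ _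
  -- the exceptional set is small
  have hB1 : (B.card : ℝ) * (d / 2) ≤ 2 * wsum a S (X \ S) := by
    have p1 : ((B ∩ S).card : ℝ) * (d / 2) ≤ wsum a S (X \ S) := by
      calc ((B ∩ S).card : ℝ) * (d / 2) = ∑ v ∈ B ∩ S, d / 2 := by simp
        _ ≤ ∑ v ∈ B ∩ S, ∑ u ∈ X \ S, a v u := sum_le_sum fun v hv => by
            simp only [hB, mem_inter, mem_filter] at hv
            rcases hv.1.2 with h | h
            · exact h.2.le
            · exact absurd hv.2 h.1
        _ ≤ _ := sum_le_sum_of_subset_of_nonneg inter_subset_right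
            fun v _ _ => sum_nonneg fun u _ => h0 v u
    have p2 : ((B \ S).card : ℝ) * (d / 2) ≤ wsum a S (X \ S) := by
      rw [wsum_comm a hs]
      calc ((B \ S).card : ℝ) * (d / 2) = ∑ v ∈ B \ S, d / 2 := by simp
        _ ≤ ∑ v ∈ B \ S, ∑ u ∈ S, a v u := sum_le_sum fun v hv => by
            simp only [hB, mem_sdiff, mem_filter] at hv
            rcases hv.1.2 with h | h
            · exact absurd h.1 hv.2
            · exact h.2.le
        _ ≤ _ := sum_le_sum_of_subset_of_nonneg (sdiff_subset_sdiff hBX le_rfl)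
            fun v _ _ => sum_nonneg fun u _ => h0 v u
    have pc : ((B ∩ S).card : ℝ) + ((B \ S).card : ℝ) = (B.card : ℝ) := by
      exact_mod_cast card_inter_add_card_sdiff B S
    nlinarith [p1, p2, pc]
  have hBd : (B.card : ℝ) * d ≤ 4 * g * (S.card : ℝ) := by linarith
  have hB4 : (B.card : ℝ) ≤ d / 4 := by
    have : 4 * g * (S.card : ℝ) ≤ 4 * g * n := by
      exact mul_le_mul_of_nonneg_left hSn (by linarith)
    nlinarith
  have hBlt : (B.card : ℝ) < (S.card : ℝ) := by
    by_contra h
    push Not at h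
    have : 16 * g * n ≤ d * n := by nlinarith
    have hgd' : 16 * g ≤ d := le_of_mul_le_mul_right this hn0
    nlinarith
  set S' : Finset V := X.filter (fun v =>
    if v ∈ B then ∑ u ∈ X \ S, a v u ≤ ∑ u ∈ S, a v u else v ∈ S) with hS'
  have hin : S \ B ⊆ S' := by
    intro v hv
    rw [mem_sdiff] at hv
    simp [hS', hSX hv.1, hv.1, hv.2]
  have hout : (X \ S) \ B ⊆ X \ S' := by
    intro v hv
    simp only [mem_sdiff] at hv
    simp [hS', hv.1.1, hv.1.2, hv.2]
  have hsplit : ∀ v, ∑ u ∈ S, a v u + ∑ u ∈ X \ S, a v u = ∑ u ∈ X, a v u := fun v => by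
    rw [add_comm]; exact sum_sdiff hSX
  have hcardBS : ∀ T : Finset V, (T.card : ℝ) ≤ ((T \ B).card : ℝ) + (B.card : ℝ) := fun T => by
    exact_mod_cast card_le_card_sdiff_add_card
  refine ⟨S', filter_subset _ _, ?_, ?_, ?_, ?_, ?_⟩
  · refine Finset.Nonempty.mono hin (card_pos.mp ?_)
    have := hcardBS S
    have : (0 : ℝ) < ((S \ B).card : ℝ) := by linarith
    exact_mod_cast this
  · refine Finset.Nonempty.mono hout (card_pos.mp ?_)
    have := hcardBS (X \ S)
    have : ((S.card : ℝ)) ≤ ((X \ S).card : ℝ) := by exact_mod_cast hle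
    have : (0 : ℝ) < (((X \ S) \ B).card : ℝ) := by linarith
    exact_mod_cast this
  · intro v hv
    have hvX : v ∈ X := (mem_filter.mp hv).1
    have hdX := hdeg v hvX
    have hhalf : d / 2 ≤ ∑ u ∈ S, a v u := by
      by_cases hvB : v ∈ B
      · have h := (mem_filter.mp hv).2
        rw [if_pos hvB] at h
        linarith [hsplit v]
      · have h := (mem_filter.mp hv).2
        rw [if_neg hvB] at h
        have : ∑ u ∈ X \ S, a v u ≤ d / 2 := by
          by_contra hc
          exact hvB (mem_filter.mpr ⟨hvX, Or.inl ⟨h, not_le.mp hc⟩⟩)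
        linarith [hsplit v]
    linarith [sum_le_sum_sdiff a h0 h1 v S S' B hin]
  · intro v hv
    rw [mem_sdiff] at hv
    have hvX := hv.1
    have hdX := hdeg v hvX
    have hnot : ¬ (if v ∈ B then ∑ u ∈ X \ S, a v u ≤ ∑ u ∈ S, a v u else v ∈ S) :=
      fun h => hv.2 (mem_filter.mpr ⟨hvX, h⟩)
    have hhalf : d / 2 ≤ ∑ u ∈ X \ S, a v u := by
      by_cases hvB : v ∈ B
      · rw [if_pos hvB] at hnot
        linarith [hsplit v, not_le.mp hnot]
      · rw [if_neg hvB] at hnot
        have : ∑ u ∈ S, a v u ≤ d / 2 := by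
          by_contra hc
          exact hvB (mem_filter.mpr ⟨hvX, Or.inr ⟨hnot, not_le.mp hc⟩⟩)
        linarith [hsplit v]
    linarith [sum_le_sum_sdiff a h0 h1 v (X \ S) (X \ S') B hout]
  · have hrow : ∀ u, ∑ w ∈ X \ S', a u w ≤ ∑ w ∈ X \ S, a u w + (B.card : ℝ) := by
      intro u
      refine sum_le_sum_sdiff a h0 h1 u (X \ S') (X \ S) B ?_
      intro w hw
      simp only [mem_sdiff, hS', mem_filter] at hw
      simp only [mem_sdiff]
      refine ⟨hw.1.1, fun hwS => hw.1.2 ⟨hw.1.1, ?_⟩⟩
      rw [if_neg hw.2]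
      exact hwS
    have hS'X : S' ⊆ X := filter_subset _ _
    have h2 : wsum a S' (X \ S) ≤ wsum a S (X \ S) + (B.card : ℝ) * n := by
      have hsub : S' \ B ⊆ S := by
        intro w hw
        simp only [mem_sdiff, hS', mem_filter] at hw
        have := hw.1.2
        rwa [if_neg hw.2] at this
      unfold wsum
      rw [← sum_inter_add_sum_sdiff S' B (fun u => ∑ v ∈ X \ S, a u v), add_comm]
      refine add_le_add ?_ ?_
      · exact sum_le_sum_of_subset_of_nonneg hsub fun v _ _ => sum_nonneg fun u _ => h0 v u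
      · calc ∑ u ∈ S' ∩ B, ∑ v ∈ X \ S, a u v ≤ ∑ u ∈ S' ∩ B, n := sum_le_sum fun u _ =>
              (sum_le_card a h1 u _).trans
                (le_trans (by exact_mod_cast card_le_card sdiff_subset) hn)
          _ = ((S' ∩ B).card : ℝ) * n := by simp
          _ ≤ _ := mul_le_mul_of_nonneg_right
              (by exact_mod_cast card_le_card inter_subset_right) hn0.le
    have h3 : wsum a S' (X \ S') ≤ wsum a S' (X \ S) + n * (B.card : ℝ) := by
      calc wsum a S' (X \ S') ≤ ∑ u ∈ S', (∑ w ∈ X \ S, a u w + (B.card : ℝ)) :=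
            sum_le_sum fun u _ => hrow u
        _ = wsum a S' (X \ S) + (S'.card : ℝ) * (B.card : ℝ) := by
            simp [wsum, sum_add_distrib]
        _ ≤ _ := by
            gcongr
            exact le_trans (by exact_mod_cast card_le_card hS'X) hn
    rw [le_div_iff₀ hd]
    have q1 : wsum a S (X \ S) * d ≤ g * n * n := by
      refine mul_le_mul ?_ hdn hd.le (by positivity)
      exact hbad.le.trans (mul_le_mul_of_nonneg_left hSn hg)
    have q2 : (B.card : ℝ) * d * n ≤ 4 * g * n * n := by
      have : 4 * g * (S.card : ℝ) ≤ 4 * g * n := mul_le_mul_of_nonneg_left hSn (by linarith)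
      exact mul_le_mul_of_nonneg_right (hBd.trans this) hn0.le
    nlinarith [h2, h3, q1, q2]

variable [Fintype V]

/-- The part with index i of a colouring. -/
def part {j : ℕ} (f : V → Fin j) (i : Fin j) : Finset V := univ.filter (fun v => f v = i)

theorem mem_part {j : ℕ} (f : V → Fin j) (i : Fin j) (v : V) : v ∈ part f i ↔ f v = i := by
  simp [part]

/-- Twice the weight between different parts. -/
def crossW (a : V → V → ℝ) {j : ℕ} (f : V → Fin j) : ℝ :=
  ∑ u, ∑ v, if f u ≠ f v then a u v else 0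

theorem crossW_split (a : V → V → ℝ) (hs : ∀ u v, a u v = a v u) {j : ℕ} (f : V → Fin j)
    (i : Fin j) (S : Finset V) (hS : S ⊆ part f i) :
    crossW a (fun v => if v ∈ S then Fin.last j else (f v).castSucc) =
      crossW a f + 2 * wsum a S (part f i \ S) := by
  have key : ∀ u v : V,
      (if (if u ∈ S then Fin.last j else (f u).castSucc) ≠
          (if v ∈ S then Fin.last j else (f v).castSucc) then a u v else 0) =
        (if f u ≠ f v then a u v else 0) +
          (if u ∈ S ∧ v ∈ part f i \ S then a u v else 0) +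
          (if v ∈ S ∧ u ∈ part f i \ S then a u v else 0) := by
    intro u v
    have hu : u ∈ S → f u = i := fun h => (mem_part f i u).mp (hS h)
    have hv : v ∈ S → f v = i := fun h => (mem_part f i v).mp (hS h)
    by_cases u1 : u ∈ S <;> by_cases v1 : v ∈ S <;>
      simp_all [mem_part, Fin.castSucc_ne_last, ne_comm] <;>
      by_cases hvi : f v = i <;> simp_all [eq_comm] <;>
      by_cases huv : f u = f v <;> simp_all
  unfold crossW
  simp only [key, sum_add_distrib]
  have e1 : ∑ u, ∑ v, (if u ∈ S ∧ v ∈ part f i \ S then a u v else 0) =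
      wsum a S (part f i \ S) := by
    simp only [wsum, ite_and, sum_ite_irrel, sum_const_zero, Finset.sum_ite_mem, univ_inter]
  have e2 : ∑ u, ∑ v, (if v ∈ S ∧ u ∈ part f i \ S then a u v else 0) =
      wsum a S (part f i \ S) := by
    rw [Finset.sum_comm]
    simp only [wsum, ite_and, sum_ite_irrel, sum_const_zero, Finset.sum_ite_mem, univ_inter]
    exact sum_congr rfl fun x _ => sum_congr rfl fun y _ => hs y x
  rw [e1, e2]
  ring

/-- Every dense weighted graph has an expanding partition. -/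
theorem exists_expanding_partition (c : ℝ) (hc : 0 < c) :
    ∃ δ γ : ℝ, 0 < δ ∧ 0 < γ ∧ ∀ (W : Type) [Fintype W] [DecidableEq W] [Nonempty W]
      (a : W → W → ℝ), (∀ u v, a u v = a v u) → (∀ u v, 0 ≤ a u v) → (∀ u v, a u v ≤ 1) →
      (∀ v, c * (Fintype.card W : ℝ) ≤ ∑ u, a v u) →
      ∃ (j : ℕ) (f : W → Fin j),
        (∀ v, δ * (Fintype.card W : ℝ) ≤ ∑ u ∈ part f (f v), a v u) ∧
        (∀ i, ∀ S ⊆ part f i, γ * (Fintype.card W : ℝ) *
            min (S.card : ℝ) ((part f i \ S).card : ℝ) ≤ wsum a S (part f i \ S)) := by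
  set J : ℕ := ⌊2 / c⌋₊ with hJ
  set δ : ℝ := c / 4 ^ J with hδ
  have hδ0 : 0 < δ := by positivity
  set γ : ℝ := min (δ ^ 2 / 16) (δ ^ 2 * c / (64 * (J + 1))) with hγ
  have hγ0 : 0 < γ := lt_min (by positivity) (by positivity)
  refine ⟨δ, γ, hδ0, hγ0, ?_⟩
  intro W _ _ _ a hs h0 h1 hdeg
  set n : ℝ := (Fintype.card W : ℝ) with hn
  have hn0 : 0 < n := by rw [hn]; exact_mod_cast Fintype.card_pos
  by_contra hcon
  push Not at hcon
  have hchain : ∀ t : ℕ, t ≤ J → ∃ f : W → Fin (t + 1), Function.Surjective f ∧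
      (∀ v, c / 4 ^ t * n ≤ ∑ u ∈ part f (f v), a v u) ∧
      crossW a f ≤ (t : ℝ) * (18 * γ * n ^ 2 / δ) := by
    intro t
    induction t with
    | zero =>
      intro _
      refine ⟨fun _ => 0, fun i => ⟨Classical.arbitrary W, (Subsingleton.elim (0 : Fin 1) i)⟩,
        fun v => ?_, ?_⟩
      · simpa [part] using hdeg v
      · simp [crossW]
    | succ t ih =>
      intro ht
      obtain ⟨f, hsurj, hd, hcross⟩ := ih (by omega)
      have hδt : δ ≤ c / 4 ^ t := by
        apply div_le_div_of_nonneg_left hc.le (by positivity)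
        exact pow_le_pow_right₀ (by norm_num) (by omega)
      obtain ⟨i, S, hS, hbad⟩ := hcon (t + 1) f
        (fun v => le_trans (mul_le_mul_of_nonneg_right hδt hn0.le) (hd v))
      obtain ⟨S0, hS0, hle, hbad0⟩ : ∃ S0 ⊆ part f i, S0.card ≤ (part f i \ S0).card ∧
          wsum a S0 (part f i \ S0) < γ * n * (S0.card : ℝ) := by
        rcases le_total S.card (part f i \ S).card with h | h
        · exact ⟨S, hS, h, by
            rwa [min_eq_left (by exact_mod_cast h)] at hbad⟩
        · have he : part f i \ (part f i \ S) = S := Finset.sdiff_sdiff_eq_self hS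
          refine ⟨part f i \ S, sdiff_subset, by rwa [he], ?_⟩
          rw [he, wsum_comm a hs]
          rwa [min_eq_right (by exact_mod_cast h)] at hbad
      set d : ℝ := c / 4 ^ t * n with hddef
      have hdpos : 0 < d := by positivity
      have hg16 : 16 * (γ * n) * n ≤ d ^ 2 := by
        have a1 : 16 * γ ≤ δ ^ 2 := by linarith [min_le_left (δ ^ 2 / 16) (δ ^ 2 * c / (64 * (J + 1)))]
        have a2 : δ ^ 2 ≤ (c / 4 ^ t) ^ 2 := pow_le_pow_left₀ hδ0.le hδt 2
        calc 16 * (γ * n) * n = 16 * γ * n ^ 2 := by ring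
          _ ≤ (c / 4 ^ t) ^ 2 * n ^ 2 := mul_le_mul_of_nonneg_right (a1.trans a2) (by positivity)
          _ = d ^ 2 := by rw [hddef]; ring
      obtain ⟨S', hS', hne, hne', hd1, hd2, hw⟩ :=
        split_part a hs h0 h1 (part f i) S0 hS0 n d (γ * n)
          (by rw [hn]; exact_mod_cast card_le_univ _) hdpos (by positivity) hg16
          (fun v hv => by rw [← (mem_part f i v).mp hv]; exact hd v) hle hbad0
      set f' : W → Fin (t + 1 + 1) :=
        fun v => if v ∈ S' then Fin.last (t + 1) else (f v).castSucc with hf'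
      refine ⟨f', ?_, ?_, ?_⟩
      · intro k
        rcases Fin.eq_castSucc_or_eq_last k with ⟨l, rfl⟩ | rfl
        · by_cases hl : l = i
          · obtain ⟨v, hv⟩ := hne'
            rw [mem_sdiff, mem_part] at hv
            exact ⟨v, by simp [hf', hv.1, hv.2, hl]⟩
          · obtain ⟨v, hv⟩ := hsurj l
            refine ⟨v, ?_⟩
            have : v ∉ S' := fun h => hl (by rw [← hv, (mem_part f i v).mp (hS' h)])
            simp [hf', this, hv]
        · obtain ⟨v, hv⟩ := hne
          exact ⟨v, by simp [hf', hv]⟩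
      · intro v
        have hpow : c / 4 ^ (t + 1) * n = d / 4 := by rw [hddef, pow_succ]; ring
        rw [hpow]
        by_cases hv : v ∈ S'
        · have : part f' (f' v) = S' := by
            ext w
            by_cases hw : w ∈ S' <;> simp [mem_part, hf', hv, hw, Fin.castSucc_ne_last]
          rw [this]; exact hd1 v hv
        · by_cases hvi : f v = i
          · have : part f' (f' v) = part f i \ S' := by
              ext w
              by_cases hw : w ∈ S' <;>
                simp [mem_part, hf', hv, hw, hvi, (Fin.castSucc_ne_last _).symm]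
            rw [this]; exact hd2 v (by simp [mem_part, hvi, hv])
          · have : part f' (f' v) = part f (f v) := by
              ext w
              by_cases hw : w ∈ S'
              · have hwi := (mem_part f i w).mp (hS' hw)
                simp [mem_part, hf', hv, hw, hwi, (Fin.castSucc_ne_last _).symm, Ne.symm hvi]
              · simp [mem_part, hf', hv, hw]
            rw [this]
            linarith [hd v]
      · rw [hf', crossW_split a hs f i S' hS']
        have hdn : δ * n ≤ d := mul_le_mul_of_nonneg_right hδt hn0.le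
        have : 9 * (γ * n) * n ^ 2 / d ≤ 9 * γ * n ^ 2 / δ := by
          calc 9 * (γ * n) * n ^ 2 / d ≤ 9 * (γ * n) * n ^ 2 / (δ * n) :=
                div_le_div_of_nonneg_left (by positivity) (by positivity) hdn
            _ = _ := by field_simp
        push_cast
        nlinarith [this, hw, hcross,
          show 18 * γ * n ^ 2 / δ = 2 * (9 * γ * n ^ 2 / δ) by ring]
  obtain ⟨f, hsurj, hd, hcross⟩ := hchain J le_rfl
  have hsmall : crossW a f < δ * n * (c * n / 2) := by
    refine hcross.trans_lt ?_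
    have a1 : γ * (64 * (J + 1)) ≤ δ ^ 2 * c :=
      (le_div_iff₀ (by positivity)).mp (min_le_right _ _)
    rw [mul_div_assoc', div_lt_iff₀ hδ0]
    have : (J : ℝ) * (18 * γ) < δ ^ 2 * c / 2 := by nlinarith
    have := mul_lt_mul_of_pos_right this (show 0 < n ^ 2 by positivity)
    nlinarith
  have hbig : ∀ i, c * n / 2 ≤ ((part f i).card : ℝ) := by
    intro i
    by_contra hlt
    push Not at hlt
    obtain ⟨v0, hv0⟩ := hsurj i
    have hs1 : δ * n ≤ ((part f i).card : ℝ) := by
      have := (hd v0).trans (sum_le_card a h1 v0 _)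
      rwa [hv0] at this
    have : ((part f i).card : ℝ) * (c * n / 2) ≤ crossW a f := by
      calc ((part f i).card : ℝ) * (c * n / 2) = ∑ v ∈ part f i, c * n / 2 := by simp
        _ ≤ ∑ u ∈ part f i, ∑ v, if f u ≠ f v then a u v else 0 := sum_le_sum fun u hu => by
            rw [mem_part] at hu
            have e : (∑ v, if f u ≠ f v then a u v else 0) + ∑ v ∈ part f i, a u v =
                ∑ v, a u v := by
              rw [part, sum_filter, ← sum_add_distrib]
              refine sum_congr rfl fun v _ => ?_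
              by_cases hv : f v = i
              · simp [hu, hv]
              · simp [hu, hv, Ne.symm hv]
            linarith [hdeg u, sum_le_card a h1 u (part f i)]
        _ ≤ _ := sum_le_sum_of_subset_of_nonneg (subset_univ _) fun u _ _ =>
            sum_nonneg fun v _ => by split <;> [exact h0 u v; exact le_rfl]
    have hmul : δ * n * (c * n / 2) ≤ ((part f i).card : ℝ) * (c * n / 2) :=
      mul_le_mul_of_nonneg_right hs1 (by positivity)
    linarith
  have htot : ∑ i, ((part f i).card : ℝ) = n := by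
    have := card_eq_sum_card_fiberwise (f := f) (s := univ) (t := univ) (fun x _ => mem_univ _)
    rw [hn, ← card_univ, this]
    push_cast
    rfl
  have : ((J : ℝ) + 1) * (c * n / 2) ≤ n := by
    calc ((J : ℝ) + 1) * (c * n / 2) = ∑ _i : Fin (J + 1), c * n / 2 := by simp
      _ ≤ _ := sum_le_sum fun i _ => hbig i
      _ = n := htot
  have hJ2 : 2 / c < (J : ℝ) + 1 := Nat.lt_floor_add_one _
  rw [div_lt_iff₀ hc] at hJ2
  nlinarith

end Vale.Agent.P061
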