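import Vale.Agent.P061.Forest

/-!
Thin spanning trees in multigraphs of bounded path-width.

Vertices carry intervals, adjacent vertices have meeting intervals and every position meets at
most `N` intervals. An edge sits at the larger of the left ends. A graph `F` grows by rounds of
linking inside windows of bounded overlap; the marked positions lose one class in every round.
-/

namespace Vale.Agent.P061.PW

open Finset SimpleGraph

variable {V : Type}

/-- The position of a pair. -/
def pos (lo : V → ℕ) (u v : V) : ℕ := max (lo u) (lo v)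

theorem pos_comm (lo : V → ℕ) (u v : V) : pos lo u v = pos lo v u := max_comm _ _

/-- Intervals for a multiplicity function: neighbours meet. -/
def Meets (m : V → V → ℕ) (lo hi : V → ℕ) : Prop :=
  (∀ v, lo v ≤ hi v) ∧ ∀ u v, 0 < m u v → lo u ≤ hi v ∧ lo v ≤ hi u

theorem pos_mem {m : V → V → ℕ} {lo hi : V → ℕ} (hI : Meets m lo hi) {u v : V}
    (h : 0 < m u v) :
    (lo u ≤ pos lo u v ∧ pos lo u v ≤ hi u) ∧ (lo v ≤ pos lo u v ∧ pos lo u v ≤ hi v) :=
  ⟨⟨le_max_left _ _, max_le (hI.1 u) (hI.2 u v h).2⟩,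
    ⟨le_max_right _ _, max_le (hI.2 u v h).1 (hI.1 v)⟩⟩

/-- The edges sitting inside a window. -/
def winGraph (F : SimpleGraph V) (lo : V → ℕ) (a b : ℕ) : SimpleGraph V where
  Adj u v := F.Adj u v ∧ a ≤ pos lo u v ∧ pos lo u v ≤ b
  symm := ⟨fun u v h => ⟨h.1.symm, by rw [pos_comm]; exact h.2⟩⟩
  loopless := ⟨fun _ h => h.1.ne rfl⟩

theorem winGraph_le (F : SimpleGraph V) (lo : V → ℕ) (a b : ℕ) : winGraph F lo a b ≤ F :=
  fun _ _ h => h.1

/-- A vertex meeting a window whose class leaves the inside of it reaches an end inside it. -/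
theorem exists_end {m : V → V → ℕ} {lo hi : V → ℕ} (hI : Meets m lo hi) {F : SimpleGraph V}
    (hF : ∀ u v, F.Adj u v → 0 < m u v) {a b : ℕ} (_hab : a ≤ b) :
    ∀ {u z : V}, F.Walk u z → lo u ≤ b → a ≤ hi u → ∀ x, lo z ≤ x → x ≤ hi z →
      (x ≤ a ∨ b ≤ x) →
      ∃ t, ((lo t ≤ a ∧ a ≤ hi t) ∨ (lo t ≤ b ∧ b ≤ hi t)) ∧
        (winGraph F lo a b).Reachable u t := by
  intro u z p
  induction p with
  | @nil u =>
    intro h1 h2 x hx1 hx2 hx
    refine ⟨u, ?_, Reachable.refl _⟩
    omega
  | @cons u w z hadj _ ih =>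
    intro h1 h2 x hx1 hx2 hx
    obtain ⟨hpu, hpw⟩ := pos_mem hI (hF u w hadj)
    by_cases hin : a ≤ pos lo u w ∧ pos lo u w ≤ b
    · obtain ⟨t, ht, hr⟩ := ih (by omega) (by omega) x hx1 hx2 hx
      have hadj' : (winGraph F lo a b).Adj u w := ⟨hadj, hin⟩
      exact ⟨t, ht, hadj'.reachable.trans hr⟩
    · refine ⟨u, ?_, Reachable.refl _⟩
      omega

/-- A class meets every position between two of its positions. -/
theorem class_covers {m : V → V → ℕ} {lo hi : V → ℕ} (hI : Meets m lo hi) {F : SimpleGraph V}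
    (hF : ∀ u v, F.Adj u v → 0 < m u v) :
    ∀ {u z : V}, F.Walk u z → ∀ p y, lo u ≤ p → p ≤ y → lo z ≤ y → y ≤ hi z →
      ∃ w, F.Reachable u w ∧ lo w ≤ p ∧ p ≤ hi w := by
  intro u z q
  induction q with
  | @nil u =>
    intro p y h1 h2 _ h4
    exact ⟨u, Reachable.refl _, h1, by omega⟩
  | @cons u w z hadj _ ih =>
    intro p y h1 h2 h3 h4
    by_cases hp : p ≤ hi u
    · exact ⟨u, Reachable.refl _, h1, hp⟩
    · obtain ⟨w', hr, hw'⟩ := ih p y (by have := hI.2 u w (hF u w hadj); omega) h2 h3 h4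
      exact ⟨w', hadj.reachable.trans hr, hw'⟩

/-- The marks with an extra final mark split positions into segments; this is a left end. -/
def segStart (Q : Finset ℕ) (j : ℕ) : ℕ := (Q.filter (· < j)).sup (· + 1)

theorem segStart_le (Q : Finset ℕ) (j : ℕ) : segStart Q j ≤ j :=
  Finset.sup_le fun q hq => (mem_filter.mp hq).2

theorem mark_below {Q : Finset ℕ} {j q : ℕ} (hq : q ∈ Q) (hqj : q < j) : q < segStart Q j :=
  Nat.lt_of_succ_le (Finset.le_sup (f := (· + 1)) (mem_filter.mpr ⟨hq, hqj⟩))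

theorem segment_unique {Q : Finset ℕ} {j l x : ℕ} (hj : j ∈ Q) (hl : l ∈ Q)
    (h1 : segStart Q j ≤ x ∧ x ≤ j) (h2 : segStart Q l ≤ x ∧ x ≤ l) : j = l := by
  rcases lt_trichotomy j l with h | h | h
  · have := mark_below hj h
    omega
  · exact h
  · have := mark_below hl h
    omega

theorem segment_exists {Q : Finset ℕ} {x T : ℕ} (hT : T ∈ Q) (hx : x ≤ T) :
    ∃ j ∈ Q, segStart Q j ≤ x ∧ x ≤ j := by
  have hne : (Q.filter (x ≤ ·)).Nonempty := ⟨T, mem_filter.mpr ⟨hT, hx⟩⟩
  obtain ⟨hj, hxj⟩ := mem_filter.mp ((Q.filter (x ≤ ·)).min'_mem hne)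
  refine ⟨_, hj, Finset.sup_le fun q hq => ?_, hxj⟩
  obtain ⟨hqQ, hlt⟩ := mem_filter.mp hq
  by_contra hc
  have := (Q.filter (x ≤ ·)).min'_le q (mem_filter.mpr ⟨hqQ, by omega⟩)
  omega

variable [Fintype V] [DecidableEq V]

/-- The vertices meeting a position. -/
def live (lo hi : V → ℕ) (p : ℕ) : Finset V := univ.filter fun v => lo v ≤ p ∧ p ≤ hi v

omit [DecidableEq V] in
theorem mem_live {lo hi : V → ℕ} {p : ℕ} {v : V} :
    v ∈ live lo hi p ↔ lo v ≤ p ∧ p ≤ hi v := by simp [live]

/-- The weight of a cut. -/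
def cutAll (m : V → V → ℕ) (S : Finset V) : ℕ := ∑ u ∈ S, ∑ v ∈ Sᶜ, m u v

/-- The weight of the edges from `A` to `B` inside a window. -/
def bundle (m : V → V → ℕ) (lo : V → ℕ) (a b : ℕ) (A B : Finset V) : ℕ :=
  ∑ u ∈ A, ∑ v ∈ B, if a ≤ pos lo u v ∧ pos lo u v ≤ b then m u v else 0

/-- `F` crosses each cut at most `C / k` times its weight. -/
def Thin (m : V → V → ℕ) (k C : ℕ) (F : SimpleGraph V) : Prop :=
  ∀ S : Finset V, k * crossCard F S ≤ C * cutAll m S

theorem crossCard_eq (L : SimpleGraph V) [DecidableRel L.Adj] (S : Finset V) :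
    crossCard L S =
      (univ.filter fun e : V × V => e.1 ∈ S ∧ e.2 ∉ S ∧ L.Adj e.1 e.2).card := by
  rw [crossCard, ← Set.ncard_coe_finset]
  congr 1
  ext e
  simp

omit [DecidableEq V] in
theorem same_side {L : SimpleGraph V} {S : Finset V} (h : crossCard L S = 0) {a b : V}
    (hab : L.Reachable a b) : a ∈ S ↔ b ∈ S := by
  classical
  rw [crossCard_eq, card_eq_zero, filter_eq_empty_iff] at h
  obtain ⟨p⟩ := hab
  induction p with
  | nil => exact Iff.rfl
  | @cons a b c hadj _ ih =>
    have h1 := h (mem_univ (a, b))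
    have h2 := h (mem_univ (b, a))
    simp only [not_and] at h1 h2
    exact ⟨fun ha => ih.mp (by_contra fun hb => h1 ha hb hadj),
      fun hc => by_contra fun ha => h2 (ih.mpr hc) ha hadj.symm⟩

/-- One round of linking inside windows of bounded overlap. -/
theorem link_round {m : V → V → ℕ} (hsym : ∀ u v, m u v = m v u) (hloop : ∀ v, m v v = 0)
    {lo : V → ℕ} {k C : ℕ} {F : SimpleGraph V} (hF : ∀ u v, F.Adj u v → 0 < m u v)
    (hthin : Thin m k C F) {ι : Type} [Fintype ι] (a b : ι → ℕ) (M L K : ℕ)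
    (hM : ∀ x, (univ.filter fun j => a j ≤ x ∧ x ≤ b j).card ≤ M)
    (E : ι → Finset (V × V)) (hL : ∀ j, (E j).card ≤ L)
    (hE : ∀ j, ∀ e ∈ E j, 0 < m e.1 e.2 ∧ ∃ A B : Finset V,
      (∀ u ∈ A, (winGraph F lo (a j) (b j)).Reachable u e.1) ∧
      (∀ v ∈ B, (winGraph F lo (a j) (b j)).Reachable v e.2) ∧
      k ≤ K * bundle m lo (a j) (b j) A B) :
    ∃ F' : SimpleGraph V, F ≤ F' ∧ (∀ u v, F'.Adj u v → 0 < m u v) ∧
      Thin m k (C + M * L * (C + K)) F' ∧ ∀ j, ∀ e ∈ E j, F'.Reachable e.1 e.2 := by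
  classical
  refine ⟨F ⊔ SimpleGraph.fromRel (fun u v => ∃ j, (u, v) ∈ E j), le_sup_left, ?_, ?_, ?_⟩
  · intro u v huv
    rcases huv with h | h
    · exact hF u v h
    · rw [SimpleGraph.fromRel_adj] at h
      rcases h.2 with ⟨j, hj⟩ | ⟨j, hj⟩
      · exact (hE j _ hj).1
      · rw [hsym]; exact (hE j _ hj).1
  · intro S
    set X : ι → Finset (V × V) := fun j => (E j).filter fun e => ¬(e.1 ∈ S ↔ e.2 ∈ S) with hX
    have h1 : crossCard (F ⊔ SimpleGraph.fromRel (fun u v => ∃ j, (u, v) ∈ E j)) S ≤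
        crossCard F S + ∑ j, (X j).card := by
      simp only [crossCard_eq]
      refine (card_le_card (t := (univ.filter fun e : V × V => e.1 ∈ S ∧ e.2 ∉ S ∧ F.Adj e.1 e.2) ∪
        univ.biUnion fun j => (X j).image fun e => if e.1 ∈ S then e else (e.2, e.1)) ?_).trans
        ((card_union_le _ _).trans (Nat.add_le_add_left (card_biUnion_le.trans
          (sum_le_sum fun j _ => card_image_le)) _))
      rintro ⟨p, q⟩ hpq
      simp only [mem_filter, mem_univ, true_and] at hpq
      obtain ⟨hp, hq, hadj⟩ := hpq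
      rcases hadj with h | h
      · exact mem_union_left _ (mem_filter.mpr ⟨mem_univ _, hp, hq, h⟩)
      · rw [SimpleGraph.fromRel_adj] at h
        refine mem_union_right _ ?_
        simp only [mem_biUnion, mem_univ, true_and, mem_image, hX, mem_filter]
        rcases h.2 with ⟨j, hj⟩ | ⟨j, hj⟩
        · exact ⟨j, (p, q), ⟨hj, fun h => hq (h.mp hp)⟩, by simp [hp]⟩
        · exact ⟨j, (q, p), ⟨hj, fun h => hq (h.mpr hp)⟩, by simp [hq]⟩
    set cw : ι → ℕ := fun j => crossCard (winGraph F lo (a j) (b j)) S with hcw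
    set wt : ι → ℕ := fun j => bundle m lo (a j) (b j) S Sᶜ with hwt
    have h2 : ∀ j, k * (X j).card ≤ L * (k * cw j + K * wt j) := by
      intro j
      rcases (X j).eq_empty_or_nonempty with h0 | ⟨e, he⟩
      · simp [h0]
      obtain ⟨he1, he2⟩ := mem_filter.mp he
      have hX' : (X j).card ≤ L := (card_filter_le _ _).trans (hL j)
      refine (Nat.mul_le_mul_left k hX').trans ?_
      rw [mul_comm k L]
      refine Nat.mul_le_mul_left L ?_
      rcases Nat.eq_zero_or_pos (cw j) with h0 | h0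
      · obtain ⟨-, A, B, hA, hB, hk⟩ := hE j e he1
        refine hk.trans (le_add_left (Nat.mul_le_mul_left K ?_))
        show bundle m lo (a j) (b j) A B ≤ bundle m lo (a j) (b j) S Sᶜ
        by_cases hs : e.1 ∈ S
        · refine (sum_le_sum_of_subset fun u hu => (same_side h0 (hA u hu)).mpr hs).trans ?_
          exact sum_le_sum fun u _ => sum_le_sum_of_subset fun v hv => mem_compl.mpr fun h =>
            he2 ⟨fun _ => (same_side h0 (hB v hv)).mp h, fun _ => hs⟩
        · have hs2 : e.2 ∈ S := by tauto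
          calc bundle m lo (a j) (b j) A B
              = ∑ v ∈ B, ∑ u ∈ A, if a j ≤ pos lo v u ∧ pos lo v u ≤ b j then m v u else 0 := by
                unfold bundle
                rw [sum_comm]
                exact sum_congr rfl fun v _ => sum_congr rfl fun u _ => by rw [pos_comm, hsym]
            _ ≤ bundle m lo (a j) (b j) S Sᶜ :=
                (sum_le_sum fun v _ => sum_le_sum_of_subset fun u hu =>
                  mem_compl.mpr fun h => hs ((same_side h0 (hA u hu)).mp h)).trans
                (sum_le_sum_of_subset fun v hv => (same_side h0 (hB v hv)).mpr hs2)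
      · exact le_add_right (Nat.le_mul_of_pos_right _ h0)
    have h3 : ∑ j, cw j ≤ M * crossCard F S := by
      simp only [hcw, crossCard_eq, card_filter]
      rw [sum_comm, mul_sum]
      refine sum_le_sum fun e _ => ?_
      by_cases he : e.1 ∈ S ∧ e.2 ∉ S ∧ F.Adj e.1 e.2
      · rw [if_pos he, mul_one, ← card_filter]
        refine le_trans (card_le_card fun j hj => ?_) (hM (pos lo e.1 e.2))
        simp only [mem_filter, mem_univ, true_and] at hj ⊢
        exact hj.2.2.2
      · rw [if_neg he, mul_zero]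
        refine le_of_eq (sum_eq_zero fun j _ => if_neg fun h => he ⟨h.1, h.2.1, h.2.2.1⟩)
    have h4 : ∑ j, wt j ≤ M * cutAll m S := by
      simp only [hwt, bundle, cutAll, mul_sum]
      rw [sum_comm]
      refine sum_le_sum fun u _ => ?_
      rw [sum_comm]
      refine sum_le_sum fun v _ => ?_
      rw [← sum_filter, sum_const, smul_eq_mul]
      exact Nat.mul_le_mul_right _ (hM _)
    calc k * crossCard (F ⊔ SimpleGraph.fromRel (fun u v => ∃ j, (u, v) ∈ E j)) S
        ≤ k * (crossCard F S + ∑ j, (X j).card) := Nat.mul_le_mul_left k h1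
      _ = k * crossCard F S + ∑ j, k * (X j).card := by rw [mul_add, mul_sum]
      _ ≤ k * crossCard F S + ∑ j, L * (k * cw j + K * wt j) :=
          Nat.add_le_add_left (sum_le_sum fun j _ => h2 j) _
      _ = k * crossCard F S + L * (k * ∑ j, cw j + K * ∑ j, wt j) := by
          rw [← mul_sum, sum_add_distrib, ← mul_sum, ← mul_sum]
      _ ≤ k * crossCard F S + L * (k * (M * crossCard F S) + K * (M * cutAll m S)) := by
          gcongr
      _ ≤ C * cutAll m S + L * (M * (C * cutAll m S) + K * (M * cutAll m S)) := by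
          refine Nat.add_le_add (hthin S) (Nat.mul_le_mul_left L (Nat.add_le_add_right ?_ _))
          calc k * (M * crossCard F S) = M * (k * crossCard F S) := by ring
            _ ≤ _ := Nat.mul_le_mul_left M (hthin S)
      _ = (C + M * L * (C + K)) * cutAll m S := by ring
  · intro j e he
    have hne : e.1 ≠ e.2 := fun h => by
      have := (hE j e he).1
      rw [h, hloop] at this
      omega
    refine (Adj.reachable (Or.inr ?_))
    rw [SimpleGraph.fromRel_adj]
    exact ⟨hne, Or.inl ⟨j, he⟩⟩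

/-- The number of classes meeting a position. -/
noncomputable def classes (F : SimpleGraph V) (lo hi : V → ℕ) (p : ℕ) : ℕ := by
  classical
  exact ((live lo hi p).image F.connectedComponentMk).card

/-- The hypotheses shared by all rounds. -/
def Setting (m : V → V → ℕ) (lo hi : V → ℕ) (N k : ℕ) : Prop :=
  (∀ u v, m u v = m v u) ∧ (∀ v, m v v = 0) ∧ Meets m lo hi ∧
    (∀ p, (live lo hi p).card ≤ N) ∧ 1 ≤ k ∧
    ∀ S : Finset V, S.Nonempty → S ≠ univ → k ≤ cutAll m S

/-- Pairs of different classes inside every segment become light. -/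
theorem segment_round {m : V → V → ℕ} {lo hi : V → ℕ} {N k C : ℕ}
    (hset : Setting m lo hi N k) {F : SimpleGraph V} (hF : ∀ u v, F.Adj u v → 0 < m u v)
    (hthin : Thin m k C F) {P : Finset ℕ} {T : ℕ}
    (hP : ∀ u, ∃ p ∈ P, ∃ z, F.Reachable u z ∧ z ∈ live lo hi p) :
    ∃ F₁ : SimpleGraph V, F ≤ F₁ ∧ (∀ u v, F₁.Adj u v → 0 < m u v) ∧
      Thin m k (C + 1 * ((2 * N) * (2 * N)) * (C + (4 * ((2 * N) * (2 * N)) + 1))) F₁ ∧
      ∀ j ∈ insert T P, ∀ I : ℕ,
        I = (∑ u, ∑ v, @ite ℕ ((segStart (insert T P) j ≤ pos lo u v ∧ pos lo u v ≤ j) ∧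
          ¬ F₁.Reachable u v) (Classical.dec _) (m u v) 0) → 4 * I ≤ k := by
  classical
  obtain ⟨hsym, hloop, hI, hN, hk, -⟩ := hset
  set Q := insert T P with hQ
  set L := (2 * N) * (2 * N) with hL
  set K := 4 * L + 1 with hK
  set Ends : ↥Q → Finset V :=
    fun j => live lo hi (segStart Q j.1) ∪ live lo hi j.1 with hEnds
  have hEcard : ∀ j, (Ends j).card ≤ 2 * N := fun j => by
    refine (card_union_le _ _).trans ?_
    have := hN (segStart Q j.1)
    have := hN j.1
    omega
  set side : ↥Q → V → Finset V := fun j s =>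
    univ.filter fun u => (winGraph F lo (segStart Q j.1) j.1).Reachable u s with hside
  set B : ↥Q → V × V → ℕ := fun j st =>
    bundle m lo (segStart Q j.1) j.1 (side j st.1) (side j st.2) with hB
  set heavy : ↥Q → Finset (V × V) :=
    fun j => (Ends j ×ˢ Ends j).filter fun st => k ≤ K * B j st with hheavy
  have hpick : ∀ j, ∀ st ∈ heavy j, ∃ e : V × V, e.1 ∈ side j st.1 ∧ e.2 ∈ side j st.2 ∧
      0 < m e.1 e.2 := by
    intro j st hst
    have hk' := (mem_filter.mp hst).2
    by_contra h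
    push Not at h
    have h0 : B j st = 0 := sum_eq_zero fun u hu => sum_eq_zero fun v hv => by
      have h' := h (u, v) hu hv
      dsimp only at h'
      split_ifs <;> omega
    rw [h0, mul_zero] at hk'
    omega
  choose e he1 he2 he3 using hpick
  set E : ↥Q → Finset (V × V) := fun j => (heavy j).attach.image fun st => e j st.1 st.2 with hE
  obtain ⟨F₁, hle, hF₁, hthin₁, hlink⟩ := link_round hsym hloop hF hthin
    (fun j : ↥Q => segStart Q j.1) (fun j => j.1) 1 L K (fun x => by
      refine card_le_one.mpr fun j hj l hl => Subtype.ext ?_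
      exact segment_unique j.2 l.2 (mem_filter.mp hj).2 (mem_filter.mp hl).2)
    E (fun j => card_image_le.trans (by
      rw [card_attach]
      refine (card_filter_le _ _).trans ?_
      rw [card_product]
      exact Nat.mul_le_mul (hEcard j) (hEcard j)))
    (fun j f hf => by
      simp only [hE, mem_image] at hf
      obtain ⟨st, -, rfl⟩ := hf
      refine ⟨he3 j _ st.2, side j st.1.1, side j st.1.2, fun u hu => ?_, fun v hv => ?_,
        (mem_filter.mp st.2).2⟩
      · exact ((mem_filter.mp hu).2).trans ((mem_filter.mp (he1 j _ st.2)).2).symm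
      · exact ((mem_filter.mp hv).2).trans ((mem_filter.mp (he2 j _ st.2)).2).symm)
  refine ⟨F₁, hle, hF₁, hthin₁, fun j hj I hIdef => ?_⟩
  set j' : ↥Q := ⟨j, hj⟩ with hj'
  set light := (Ends j' ×ˢ Ends j').filter fun st => ¬ k ≤ K * B j' st with hlight
  have hIle : I ≤ ∑ st ∈ light, B j' st := by
    rw [hIdef]
    simp only [hB, bundle, hside, sum_filter]
    rw [sum_comm (s := light)]
    refine sum_le_sum fun u _ => ?_
    simp only [ite_sum_zero]
    rw [sum_comm (s := light)]
    refine sum_le_sum fun v _ => ?_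
    by_cases hcond : (segStart Q j ≤ pos lo u v ∧ pos lo u v ≤ j) ∧ ¬ F₁.Reachable u v
    swap
    · rw [if_neg hcond]; exact Nat.zero_le _
    rw [if_pos hcond]
    obtain ⟨hin, hnr⟩ := hcond
    rcases Nat.eq_zero_or_pos (m u v) with h0 | h0
    · rw [h0]; exact Nat.zero_le _
    obtain ⟨hpu, hpv⟩ := pos_mem hI h0
    have hend : ∀ w, lo w ≤ pos lo u v → pos lo u v ≤ hi w →
        ∃ t ∈ Ends j', (winGraph F lo (segStart Q j) j).Reachable w t := by
      intro w hw1 hw2
      obtain ⟨p, hp, z, hwz, hzp⟩ := hP w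
      obtain ⟨hz1, hz2⟩ := mem_live.mp hzp
      obtain ⟨q⟩ := hwz
      obtain ⟨t, ht, hwt⟩ := exists_end hI hF (segStart_le Q j) q (by omega) (by omega) p hz1 hz2 (by
        rcases Nat.lt_or_ge p j with hlt | hge
        · exact Or.inl (mark_below (mem_insert_of_mem hp) hlt).le
        · exact Or.inr hge)
      refine ⟨t, ?_, hwt⟩
      simp only [hEnds, mem_union, mem_live]
      exact ht
    obtain ⟨s, hs, hus⟩ := hend u hpu.1 hpu.2
    obtain ⟨t, ht, hvt⟩ := hend v hpv.1 hpv.2
    have hst : (s, t) ∈ light := by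
      refine mem_filter.mpr ⟨mem_product.mpr ⟨hs, ht⟩, fun hh => hnr ?_⟩
      have hmem : (s, t) ∈ heavy j' := mem_filter.mpr ⟨mem_product.mpr ⟨hs, ht⟩, hh⟩
      have hl := hlink j' (e j' (s, t) hmem)
        (mem_image.mpr ⟨⟨(s, t), hmem⟩, mem_attach _ _, rfl⟩)
      have mon : ∀ {x y}, (winGraph F lo (segStart Q j) j).Reachable x y → F₁.Reachable x y :=
        fun h => h.mono ((winGraph_le F lo _ _).trans hle)
      exact (mon hus).trans ((mon (mem_filter.mp (he1 j' _ hmem)).2).symm.trans
        (hl.trans ((mon (mem_filter.mp (he2 j' _ hmem)).2).trans (mon hvt).symm)))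
    refine le_trans ?_ (single_le_sum (fun _ _ => Nat.zero_le _) hst)
    simp only [hj']
    rw [if_pos hus, if_pos hvt, if_pos hin]
  have hKI : K * I ≤ L * k := by
    calc K * I ≤ K * ∑ st ∈ light, B j' st := Nat.mul_le_mul_left K hIle
      _ = ∑ st ∈ light, K * B j' st := mul_sum _ _ _
      _ ≤ ∑ _st ∈ light, k := sum_le_sum fun st hst => (not_le.mp (mem_filter.mp hst).2).le
      _ ≤ L * k := by
          rw [sum_const, smul_eq_mul]
          refine Nat.mul_le_mul_right k ((card_filter_le _ _).trans ?_)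
          rw [card_product]
          exact Nat.mul_le_mul (hEcard j') (hEcard j')
  by_contra hc
  rw [not_le] at hc
  have h5 := Nat.mul_le_mul_left L hc
  rw [hK] at hKI
  nlinarith

/-- Every class gets, inside its span, a mark at which two classes are merged. -/
theorem merge_round {m : V → V → ℕ} {lo hi : V → ℕ} {N k C : ℕ}
    (hset : Setting m lo hi N k) {F : SimpleGraph V} (hF : ∀ u v, F.Adj u v → 0 < m u v)
    (hthin : Thin m k C F) {P : Finset ℕ} {T : ℕ} (hT : ∀ v, hi v ≤ T)
    (hP : ∀ u, ∃ p ∈ P, ∃ z, F.Reachable u z ∧ z ∈ live lo hi p) (hnc : ¬ F.Connected)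
    (hlight : ∀ j ∈ insert T P, ∀ I : ℕ,
      I = (∑ u, ∑ v, @ite ℕ ((segStart (insert T P) j ≤ pos lo u v ∧ pos lo u v ≤ j) ∧
        ¬ F.Reachable u v) (Classical.dec _) (m u v) 0) → 4 * I ≤ k) [Nonempty V] :
    ∃ F₂ : SimpleGraph V, F ≤ F₂ ∧ (∀ u v, F₂.Adj u v → 0 < m u v) ∧
      Thin m k (C + N * 1 * (C + 4 * N)) F₂ ∧
      ∀ u, ∃ p ∈ P, classes F₂ lo hi p < classes F lo hi p ∧
        ∃ z, F₂.Reachable u z ∧ z ∈ live lo hi p := by
  classical
  obtain ⟨hsym, hloop, hI, hN, hk, hcut⟩ := hset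
  set Q := insert T P with hQ
  set Mem : F.ConnectedComponent → Finset V :=
    fun c => univ.filter fun v => F.connectedComponentMk v = c with hMem
  have hne : ∀ c, (Mem c).Nonempty := fun c => by
    induction c using ConnectedComponent.ind with
    | h v => exact ⟨v, by simp [hMem]⟩
  set A : F.ConnectedComponent → ℕ := fun c => (Mem c).inf' (hne c) lo with hA
  set Z : F.ConnectedComponent → ℕ := fun c => (Mem c).sup' (hne c) hi with hZ
  have hAle : ∀ v, A (F.connectedComponentMk v) ≤ lo v := fun v => inf'_le _ (by simp [hMem])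
  have hZge : ∀ v, hi v ≤ Z (F.connectedComponentMk v) := fun v => le_sup' hi (by simp [hMem])
  have cover : ∀ c x, A c ≤ x → x ≤ Z c → ∃ w, F.connectedComponentMk w = c ∧ w ∈ live lo hi x := by
    intro c x h1 h2
    obtain ⟨u, hu, hu'⟩ := exists_mem_eq_inf' (hne c) lo
    obtain ⟨z, hz, hz'⟩ := exists_mem_eq_sup' (hne c) hi
    have huz : F.Reachable u z :=
      ConnectedComponent.exact ((mem_filter.mp hu).2.trans (mem_filter.mp hz).2.symm)
    obtain ⟨q⟩ := huz
    obtain ⟨w, hw, hwx⟩ := class_covers hI hF q x (Z c) (hu' ▸ h1) h2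
      (by rw [hZ]; simp only; rw [hz']; exact hI.1 z) (by rw [hZ]; simp only; rw [hz'])
    exact ⟨w, (ConnectedComponent.sound hw).symm.trans (mem_filter.mp hu).2, mem_live.mpr hwx⟩
  set Min : F.ConnectedComponent → Prop := fun c => ∀ d, ¬(A c < A d ∧ Z d < Z c) with hMin
  set Shares : F.ConnectedComponent → V → Prop := fun c v => ∃ p ∈ P,
    (∃ y, F.connectedComponentMk y = c ∧ y ∈ live lo hi p) ∧
    ∃ z, F.connectedComponentMk z = F.connectedComponentMk v ∧ z ∈ live lo hi p with hShares
  have hpick : ∀ c, Min c → ∃ e : V × V, F.connectedComponentMk e.1 = c ∧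
      F.connectedComponentMk e.2 ≠ c ∧ Shares c e.2 ∧ 0 < m e.1 e.2 ∧
      ∃ B : Finset V, (∀ v ∈ B, (winGraph F lo (A c) (Z c)).Reachable v e.2) ∧
        k ≤ 4 * N * bundle m lo (A c) (Z c) (Mem c) B := by
    intro c hc
    obtain ⟨u₀, hu₀⟩ := hne c
    have hu₀c := (mem_filter.mp hu₀).2
    have hAZ : A c ≤ Z c := by
      rw [← hu₀c]; exact (hAle u₀).trans ((hI.1 u₀).trans (hZge u₀))
    have hproper : Mem c ≠ univ := by
      intro h
      refine hnc ⟨fun x y => ConnectedComponent.exact ?_⟩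
      have hx : x ∈ Mem c := h ▸ mem_univ x
      have hy : y ∈ Mem c := h ▸ mem_univ y
      exact (mem_filter.mp hx).2.trans (mem_filter.mp hy).2.symm
    have hkcut := hcut _ (hne c) hproper
    obtain ⟨jA, hjA, hjA'⟩ := segment_exists (Q := Q) (x := A c) (T := T) (mem_insert_self _ _) (by
      rw [← hu₀c]; exact ((hAle u₀).trans (hI.1 u₀)).trans (hT u₀))
    have hZT : Z c ≤ T := sup'_le _ _ fun v _ => hT v
    obtain ⟨jZ, hjZ, hjZ'⟩ := segment_exists (Q := Q) (x := Z c) (T := T) (mem_insert_self _ _) hZT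
    set G : Finset V := (Mem c)ᶜ.filter fun v => Shares c v with hG
    set I : ℕ → ℕ := fun j => ∑ u, ∑ v,
      @ite ℕ ((segStart Q j ≤ pos lo u v ∧ pos lo u v ≤ j) ∧ ¬ F.Reachable u v)
        (Classical.dec _) (m u v) 0 with hIdef
    have hsplit : cutAll m (Mem c) ≤ bundle m lo (A c) (Z c) (Mem c) G + (I jA + I jZ) := by
      have step : ∀ u ∈ Mem c, ∀ v ∈ (Mem c)ᶜ, m u v ≤
          (if Shares c v then
            (if A c ≤ pos lo u v ∧ pos lo u v ≤ Z c then m u v else 0) else 0) +
          ((@ite ℕ ((segStart Q jA ≤ pos lo u v ∧ pos lo u v ≤ jA) ∧ ¬ F.Reachable u v)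
              (Classical.dec _) (m u v) 0) +
            @ite ℕ ((segStart Q jZ ≤ pos lo u v ∧ pos lo u v ≤ jZ) ∧ ¬ F.Reachable u v)
              (Classical.dec _) (m u v) 0) := by
        intro u hu v hv
        rcases Nat.eq_zero_or_pos (m u v) with h0 | h0
        · rw [h0]; exact Nat.zero_le _
        have huc := (mem_filter.mp hu).2
        have hvc : F.connectedComponentMk v ≠ c := fun h =>
          mem_compl.mp hv (mem_filter.mpr ⟨mem_univ _, h⟩)
        have hnr : ¬ F.Reachable u v := fun h =>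
          hvc ((ConnectedComponent.sound h).symm.trans huc)
        obtain ⟨⟨hpu1, hpu2⟩, hpv1, hpv2⟩ := pos_mem hI h0
        set x := pos lo u v with hx
        have hxA : A c ≤ x := by have := hAle u; rw [huc] at this; omega
        have hxZ : x ≤ Z c := by have := hZge u; rw [huc] at this; omega
        by_cases hsh : Shares c v
        · rw [if_pos hsh, if_pos ⟨hxA, hxZ⟩]; exact Nat.le_add_right _ _
        obtain ⟨j, hj, hj'⟩ := segment_exists (Q := Q) (x := x) (T := T) (mem_insert_self _ _)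
          (by omega)
        rcases Nat.lt_or_ge (A c) (segStart Q j) with ha | ha
        swap
        · have hjj : j = jA := segment_unique hj hjA ⟨ha, by omega⟩ hjA'
          rw [hjj] at hj'
          rw [if_pos (show (segStart Q jA ≤ x ∧ x ≤ jA) ∧ ¬ F.Reachable u v from ⟨hj', hnr⟩)]
          omega
        rcases Nat.lt_or_ge j (Z c) with hz | hz
        swap
        · have hjj : j = jZ := segment_unique hj hjZ ⟨by omega, hz⟩ hjZ'
          rw [hjj] at hj'
          rw [if_pos (show (segStart Q jZ ≤ x ∧ x ≤ jZ) ∧ ¬ F.Reachable u v from ⟨hj', hnr⟩)]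
          omega
        exfalso
        apply hsh
        obtain ⟨q, hq, hqeq⟩ := exists_mem_eq_sup (Q.filter (· < j)) (by
          rw [nonempty_iff_ne_empty]
          intro h0'
          rw [segStart, h0', sup_empty] at ha
          exact Nat.not_lt_zero _ ha) (· + 1)
        obtain ⟨hqQ, hqj⟩ := mem_filter.mp hq
        have hqs : segStart Q j = q + 1 := hqeq
        have hqP : q ∈ P := (mem_insert.mp hqQ).resolve_left (by omega)
        have hjP : j ∈ P := (mem_insert.mp hj).resolve_left (by omega)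
        obtain ⟨p, hp, z, hvz, hzp⟩ := hP v
        obtain ⟨hzp1, hzp2⟩ := mem_live.mp hzp
        have hzc := ConnectedComponent.sound hvz
        rcases Nat.lt_or_ge p j with hlt | hge
        · have hpq : p ≤ q := by
            have : p < segStart Q j := mark_below (Q := Q) (mem_insert_of_mem hp) hlt
            omega
          obtain ⟨w₁, hw₁⟩ := cover c q (by omega) (by omega)
          obtain ⟨w₂, hw₂⟩ := cover (F.connectedComponentMk v) q
            (by have := hAle z; rw [← hzc] at this; omega)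
            (by have := hZge v; omega)
          exact ⟨q, hqP, ⟨w₁, hw₁⟩, w₂, hw₂⟩
        · obtain ⟨w₁, hw₁⟩ := cover c j (by omega) (by omega)
          obtain ⟨w₂, hw₂⟩ := cover (F.connectedComponentMk v) j
            (by have := hAle v; omega)
            (by have := hZge z; rw [← hzc] at this; omega)
          exact ⟨j, hjP, ⟨w₁, hw₁⟩, w₂, hw₂⟩
      refine (sum_le_sum fun u hu => sum_le_sum fun v hv => step u hu v hv).trans ?_
      simp only [sum_add_distrib]
      refine Nat.add_le_add (le_of_eq ?_) (Nat.add_le_add ?_ ?_)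
      · simp only [bundle, hG, sum_filter]
      all_goals
        refine (sum_le_sum fun u _ => sum_le_sum_of_subset (subset_univ _)).trans ?_
        exact sum_le_sum_of_subset (subset_univ _)
    have hA4 := hlight jA hjA (I jA) rfl
    have hZ4 := hlight jZ hjZ (I jZ) rfl
    have hbig : k ≤ 2 * bundle m lo (A c) (Z c) (Mem c) G := by omega
    set Ends : Finset V := live lo hi (A c) ∪ live lo hi (Z c) with hEnds
    set Bt : V → Finset V :=
      fun t => G.filter fun v => (winGraph F lo (A c) (Z c)).Reachable v t with hBt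
    have hcov : bundle m lo (A c) (Z c) (Mem c) G ≤
        ∑ t ∈ Ends, bundle m lo (A c) (Z c) (Mem c) (Bt t) := by
      simp only [bundle, hBt, sum_filter]
      rw [sum_comm (s := Ends)]
      refine sum_le_sum fun u _ => ?_
      rw [sum_comm (s := Ends)]
      refine sum_le_sum fun v hv => ?_
      by_cases hin : A c ≤ pos lo u v ∧ pos lo u v ≤ Z c
      swap
      · rw [if_neg hin]; exact Nat.zero_le _
      rw [if_pos hin]
      rcases Nat.eq_zero_or_pos (m u v) with h0 | h0
      · rw [h0]; exact Nat.zero_le _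
      obtain ⟨-, hpv1, hpv2⟩ := pos_mem hI h0
      obtain ⟨t, ht, hvt⟩ : ∃ t ∈ Ends, (winGraph F lo (A c) (Z c)).Reachable v t := by
        set d := F.connectedComponentMk v with hd
        have : A d ≤ A c ∨ Z c ≤ Z d := by
          have h := hc d
          omega
        obtain ⟨z, x, hvz, hz1, hz2, hx⟩ : ∃ z x, F.Reachable v z ∧ lo z ≤ x ∧ x ≤ hi z ∧
            (x ≤ A c ∨ Z c ≤ x) := by
          rcases this with h | h
          · obtain ⟨z, hz, hz'⟩ := exists_mem_eq_inf' (hne d) lo
            refine ⟨z, lo z, ConnectedComponent.exact (mem_filter.mp hz).2.symm, le_rfl, hI.1 z,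
              Or.inl ?_⟩
            rw [← hz']; exact h
          · obtain ⟨z, hz, hz'⟩ := exists_mem_eq_sup' (hne d) hi
            refine ⟨z, hi z, ConnectedComponent.exact (mem_filter.mp hz).2.symm, hI.1 z, le_rfl,
              Or.inr ?_⟩
            rw [← hz']; exact h
        obtain ⟨q⟩ := hvz
        obtain ⟨t, ht, hvt⟩ := exists_end hI hF hAZ q (by omega) (by omega) x hz1 hz2 hx
        refine ⟨t, ?_, hvt⟩
        simp only [hEnds, mem_union, mem_live]
        exact ht
      refine le_trans ?_ (single_le_sum (fun _ _ => Nat.zero_le _) ht)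
      rw [if_pos hvt]
    obtain ⟨t, ht, hmax⟩ := exists_max_image Ends
      (fun t => bundle m lo (A c) (Z c) (Mem c) (Bt t)) (by
        obtain ⟨w, -, hw⟩ := cover c (A c) le_rfl hAZ
        exact ⟨w, mem_union_left _ hw⟩)
    have hEc : Ends.card ≤ 2 * N := by
      have := card_union_le (live lo hi (A c)) (live lo hi (Z c))
      have := hN (A c)
      have := hN (Z c)
      simp only [hEnds]
      omega
    have hK : k ≤ 4 * N * bundle m lo (A c) (Z c) (Mem c) (Bt t) := by
      calc k ≤ 2 * bundle m lo (A c) (Z c) (Mem c) G := hbig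
        _ ≤ 2 * (Ends.card * bundle m lo (A c) (Z c) (Mem c) (Bt t)) := by
            refine Nat.mul_le_mul_left 2 (hcov.trans ?_)
            exact (sum_le_card_nsmul _ _ _ hmax).trans_eq (smul_eq_mul _ _)
        _ ≤ 2 * (2 * N * bundle m lo (A c) (Z c) (Mem c) (Bt t)) :=
            Nat.mul_le_mul_left 2 (Nat.mul_le_mul_right _ hEc)
        _ = _ := by ring
    obtain ⟨u, hu, v, hv, huv⟩ : ∃ u ∈ Mem c, ∃ v ∈ Bt t, 0 < m u v := by
      by_contra h
      push Not at h
      have h0 : bundle m lo (A c) (Z c) (Mem c) (Bt t) = 0 :=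
        sum_eq_zero fun u hu => sum_eq_zero fun v hv => by
          have := h u hu v hv
          split_ifs <;> omega
      rw [h0, mul_zero] at hK
      omega
    obtain ⟨hvG, hvt⟩ := mem_filter.mp hv
    obtain ⟨hvc, hvs⟩ := mem_filter.mp hvG
    refine ⟨(u, v), (mem_filter.mp hu).2, fun h => ?_, hvs, huv, Bt t,
      fun w hw => (mem_filter.mp hw).2.trans hvt.symm, hK⟩
    exact mem_compl.mp hvc (mem_filter.mpr ⟨mem_univ _, h⟩)
  choose e he1 he2 he3 he4 he5 using hpick
  set E : F.ConnectedComponent → Finset (V × V) :=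
    fun c => if h : Min c then {e c h} else ∅ with hE
  obtain ⟨F₂, hle, hF₂, hthin₂, hlink⟩ := link_round hsym hloop hF hthin A Z N 1 (4 * N)
    (fun x => by
      refine (card_le_card (t := (live lo hi x).image F.connectedComponentMk) fun c hc => ?_).trans
        (card_image_le.trans (hN x))
      obtain ⟨w, hw, hwx⟩ := cover c x (mem_filter.mp hc).2.1 (mem_filter.mp hc).2.2
      exact mem_image.mpr ⟨w, hwx, hw⟩)
    E (fun c => by simp only [hE]; split_ifs <;> simp)
    (fun c f hf => by
      simp only [hE] at hf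
      split_ifs at hf with h
      · rw [mem_singleton] at hf
        subst hf
        obtain ⟨B, hB, hkB⟩ := he5 c h
        refine ⟨he4 c h, Mem c, B, fun u hu => ?_, hB, hkB⟩
        have hreach : F.Reachable u (e c h).1 :=
          ConnectedComponent.exact ((mem_filter.mp hu).2.trans (he1 c h).symm)
        obtain ⟨q⟩ := hreach
        have key : ∀ {x y : V}, F.Walk x y → F.connectedComponentMk x = c →
            (winGraph F lo (A c) (Z c)).Reachable x y := by
          intro x y q
          induction q with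
          | nil => intro _; exact Reachable.refl _
          | @cons x w y hadj _ ih =>
            intro hx
            have hw : F.connectedComponentMk w = c :=
              (ConnectedComponent.connectedComponentMk_eq_of_adj hadj).symm.trans hx
            obtain ⟨hp, -⟩ := pos_mem hI (hF x w hadj)
            have h1 := hAle x
            have h2 := hZge x
            rw [hx] at h1 h2
            have hadj' : (winGraph F lo (A c) (Z c)).Adj x w :=
              ⟨hadj, by omega, by omega⟩
            exact hadj'.reachable.trans (ih hw)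
        exact key q (mem_filter.mp hu).2
      · simp at hf)
  refine ⟨F₂, hle, hF₂, hthin₂, fun u => ?_⟩
  set d := F.connectedComponentMk u with hd
  obtain ⟨c, hc, hcmin⟩ := exists_min_image
    ((univ : Finset F.ConnectedComponent).filter fun c => A d ≤ A c ∧ Z c ≤ Z d)
    (fun c => Z c - A c) ⟨d, by simp⟩
  obtain ⟨hcA, hcZ⟩ := (mem_filter.mp hc).2
  have hmin : Min c := by
    rintro d' ⟨h1, h2⟩
    have := hcmin d' (mem_filter.mpr ⟨mem_univ _, by omega, by omega⟩)
    obtain ⟨w, hw⟩ := hne d'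
    have h3 := (hAle w).trans ((hI.1 w).trans (hZge w))
    rw [(mem_filter.mp hw).2] at h3
    omega
  obtain ⟨p, hp, ⟨y, hy, hyp⟩, z, hz, hzp⟩ := he3 c hmin
  have hl := hlink c (e c hmin) (by simp only [hE]; rw [dif_pos hmin]; exact mem_singleton_self _)
  have hyz : F₂.Reachable y z :=
    ((ConnectedComponent.exact (hy.trans (he1 c hmin).symm)).mono hle).trans
      (hl.trans ((ConnectedComponent.exact hz.symm).mono hle))
  refine ⟨p, hp, ?_, ?_⟩
  · set φ : F.ConnectedComponent → F₂.ConnectedComponent :=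
      fun c => c.map (Hom.ofLE hle) with hφ
    have himg : (live lo hi p).image F₂.connectedComponentMk =
        ((live lo hi p).image F.connectedComponentMk).image φ := by
      rw [image_image]
      exact image_congr fun x _ => rfl
    unfold classes
    rw [himg]
    refine lt_of_le_of_ne card_image_le fun heq => ?_
    have hinj := card_image_iff.mp heq
    have hyz' := hinj (mem_image_of_mem _ hyp) (mem_image_of_mem _ hzp)
      (ConnectedComponent.sound hyz)
    exact he2 c hmin (hz.symm.trans (hyz'.symm.trans hy))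
  · obtain ⟨hy1, hy2⟩ := mem_live.mp hyp
    obtain ⟨w, hw, hwp⟩ := cover d p (by have := hAle y; rw [hy] at this; omega)
      (by have := hZge y; rw [hy] at this; omega)
    exact ⟨w, (ConnectedComponent.exact hw.symm).mono hle, hwp⟩

/-- All rounds. -/
theorem rounds (N : ℕ) : ∀ v C : ℕ, ∃ C' : ℕ, ∀ (V : Type) [Fintype V] [DecidableEq V] [Nonempty V]
    (m : V → V → ℕ) (lo hi : V → ℕ) (k : ℕ), Setting m lo hi N k →
    ∀ (F : SimpleGraph V) (P : Finset ℕ), (∀ a b, F.Adj a b → 0 < m a b) → Thin m k C F →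
      (∀ p ∈ P, classes F lo hi p ≤ v) →
      (∀ u, ∃ p ∈ P, ∃ z, F.Reachable u z ∧ z ∈ live lo hi p) →
      ∃ F' : SimpleGraph V, F'.Connected ∧ (∀ a b, F'.Adj a b → 0 < m a b) ∧ Thin m k C' F' := by
  intro v
  induction v with
  | zero =>
    intro C
    refine ⟨0, fun V _ _ _ m lo hi k hset F P hF hthin hcount hP => ?_⟩
    classical
    obtain ⟨u⟩ := ‹Nonempty V›
    obtain ⟨p, hp, z, -, hz⟩ := hP u
    have h1 := hcount p hp
    unfold classes at h1
    have h2 : 0 < ((live lo hi p).image F.connectedComponentMk).card :=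
      card_pos.mpr ⟨_, mem_image_of_mem _ hz⟩
    omega
  | succ v ih =>
    intro C
    set C₁ := C + 1 * ((2 * N) * (2 * N)) * (C + (4 * ((2 * N) * (2 * N)) + 1)) with hC₁
    set C₂ := C₁ + N * 1 * (C₁ + 4 * N) with hC₂
    obtain ⟨C', hC'⟩ := ih C₂
    refine ⟨C₁ + C', fun V _ _ _ m lo hi k hset F P hF hthin hcount hP => ?_⟩
    classical
    set T := univ.sup hi with hT
    obtain ⟨F₁, hle, hF₁, hthin₁, hlight⟩ := segment_round hset hF hthin (T := T) hP
    by_cases hconn : F₁.Connected
    · exact ⟨F₁, hconn, hF₁, fun S => (hthin₁ S).trans (Nat.mul_le_mul_right _ (Nat.le_add_right _ _))⟩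
    have hP₁ : ∀ u, ∃ p ∈ P, ∃ z, F₁.Reachable u z ∧ z ∈ live lo hi p := fun u => by
      obtain ⟨p, hp, z, h1, h2⟩ := hP u
      exact ⟨p, hp, z, h1.mono hle, h2⟩
    obtain ⟨F₂, hle₂, hF₂, hthin₂, hgood⟩ := merge_round hset hF₁ hthin₁ (T := T)
      (fun v => le_sup (mem_univ v)) hP₁ hconn hlight
    have hmono : ∀ p, classes F₁ lo hi p ≤ classes F lo hi p := fun p => by
      unfold classes
      refine le_trans (le_of_eq ?_) (card_image_le (f := fun c => c.map (Hom.ofLE hle)))
      rw [image_image]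
      exact congrArg Finset.card (image_congr fun x _ => rfl)
    obtain ⟨F', h1, h2, h3⟩ := hC' V m lo hi k hset F₂ (P.filter fun p => classes F₂ lo hi p ≤ v)
      hF₂ hthin₂ (fun p hp => (mem_filter.mp hp).2) (fun u => by
        obtain ⟨p, hp, hlt, hz⟩ := hgood u
        have := hmono p
        have := hcount p hp
        exact ⟨p, mem_filter.mpr ⟨hp, by omega⟩, hz⟩)
    exact ⟨F', h1, h2, fun S => (h3 S).trans (Nat.mul_le_mul_right _ (Nat.le_add_left _ _))⟩

end Vale.Agent.P061.PW

namespace Vale.Agent.P061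

/-- Path-width at most `w`, by an interval model: the intervals of neighbours meet and each
position meets at most `w + 1` intervals. -/
def PathWidthLE {V : Type} [Fintype V] (m : V → V → ℕ) (w : ℕ) : Prop :=
  ∃ lo hi : V → ℕ, (∀ v, lo v ≤ hi v) ∧ (∀ u v, 0 < m u v → lo u ≤ hi v ∧ lo v ≤ hi u) ∧
    ∀ p, (Finset.univ.filter fun v => lo v ≤ p ∧ p ≤ hi v).card ≤ w + 1

/-- Bounded path-width multigraphs have thin spanning trees. -/
theorem exists_thin_of_pathWidth : ∀ w : ℕ, ∃ C : ℝ, 0 < C ∧
    ∀ (V : Type) [Fintype V] [DecidableEq V] (m : V → V → ℕ) (k : ℕ),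
      2 ≤ Fintype.card V → (∀ u v, m u v = m v u) → (∀ v, m v v = 0) → 1 ≤ k → PathWidthLE m w →
      (∀ S : Finset V, S.Nonempty → S ≠ Finset.univ → k ≤ ∑ u ∈ S, ∑ v ∈ Sᶜ, m u v) →
      ∃ T : SimpleGraph V, T.IsTree ∧ (∀ u v, T.Adj u v → 0 < m u v) ∧
        ∀ S : Finset V,
          (Set.ncard {e : V × V | e.1 ∈ S ∧ e.2 ∉ S ∧ T.Adj e.1 e.2} : ℝ) ≤
            C / (k : ℝ) * ((∑ u ∈ S, ∑ v ∈ Sᶜ, m u v : ℕ) : ℝ) := by
  intro w
  obtain ⟨C', hC'⟩ := PW.rounds (w + 1) (w + 1) 0
  refine ⟨(C' : ℝ) + 1, by positivity, fun V _ _ m k hn hsym hloop hk hpw hcut => ?_⟩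
  classical
  obtain ⟨lo, hi, h1, h2, h3⟩ := hpw
  have : Nonempty V := Fintype.card_pos_iff.mp (by omega)
  have hset : PW.Setting m lo hi (w + 1) k := ⟨hsym, hloop, ⟨h1, h2⟩, h3, hk, hcut⟩
  obtain ⟨F, hconn, hF, hthin⟩ := hC' V m lo hi k hset ⊥ (Finset.univ.image lo)
    (fun a b h => absurd h (by simp)) (fun S => by simp [crossCard]) (fun p _ => by
      unfold PW.classes
      exact Finset.card_image_le.trans (h3 p))
    (fun u => ⟨lo u, Finset.mem_image_of_mem _ (Finset.mem_univ u), u, SimpleGraph.Reachable.refl _,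
      PW.mem_live.mpr ⟨le_rfl, h1 u⟩⟩)
  obtain ⟨T, hTF, hT⟩ := hconn.exists_isTree_le
  refine ⟨T, hT, fun u v h => hF u v (hTF h), fun S => ?_⟩
  have h4 : k * crossCard T S ≤ (C' + 1) * ∑ u ∈ S, ∑ v ∈ Sᶜ, m u v :=
    (Nat.mul_le_mul_left k (crossCard_mono hTF S)).trans
      ((hthin S).trans (Nat.mul_le_mul_right _ (Nat.le_succ _)))
  have hk0 : (0 : ℝ) < k := by exact_mod_cast hk
  rw [div_mul_eq_mul_div, le_div_iff₀ hk0, mul_comm _ (k : ℝ)]
  exact_mod_cast h4

end Vale.Agent.P061
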