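import Vale.Agent.P061.Partition
import Vale.Agent.P061.Forest

/-!
Thin spanning trees for graphs split into boundedly many dense parts.
-/

namespace Vale.Agent.P061

open Finset SimpleGraph

/-- A dense part splits into boundedly many expanding pieces. -/
theorem exists_refined (c : ℝ) (hc : 0 < c) :
    ∃ (δ γ : ℝ) (J : ℕ), 0 < δ ∧ 0 < γ ∧ 0 < J ∧ ∀ (V : Type) [Fintype V] [DecidableEq V]
      (a : V → V → ℝ), (∀ u v, a u v = a v u) → (∀ u v, 0 ≤ a u v) → (∀ u v, a u v ≤ 1) →
      ∀ Z : Finset V, (∀ v ∈ Z, c * (Z.card : ℝ) ≤ ∑ u ∈ Z, a v u) →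
        ∃ g : V → Fin J, ∀ k,
          (∀ v ∈ Z.filter (fun u => g u = k), δ * ((Z.filter (fun u => g u = k)).card : ℝ) ≤
            ∑ u ∈ Z.filter (fun u => g u = k), a v u) ∧
          ∀ S ⊆ Z.filter (fun u => g u = k), γ * ((Z.filter (fun u => g u = k)).card : ℝ) *
            min (S.card : ℝ) ((Z.filter (fun u => g u = k) \ S).card : ℝ) ≤
              wsum a S (Z.filter (fun u => g u = k) \ S) := by
  obtain ⟨δ, γ, hδ, hγ, hpart⟩ := exists_expanding_partition c hc
  refine ⟨δ, γ, ⌊1 / δ⌋₊ + 1, hδ, hγ, Nat.succ_pos _, ?_⟩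
  intro V _ _ a hs h0 h1 Z hdeg
  classical
  rcases Z.eq_empty_or_nonempty with rfl | hne
  · refine ⟨fun _ => 0, fun k => ⟨by simp, fun S hS => ?_⟩⟩
    rw [filter_empty, subset_empty] at hS
    subst hS
    simp [wsum]
  haveI : Nonempty {x // x ∈ Z} := ⟨⟨hne.choose, hne.choose_spec⟩⟩
  obtain ⟨j, f, hd, hex⟩ := hpart {x // x ∈ Z} (fun u v => a u.1 v.1)
    (fun u v => hs _ _) (fun u v => h0 _ _) (fun u v => h1 _ _) (fun v => by
      rw [Fintype.card_coe]
      refine (hdeg v.1 v.2).trans (le_of_eq ?_)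
      exact (sum_coe_sort Z (fun u => a v.1 u)).symm)
  rw [Fintype.card_coe] at hd hex
  set n : ℝ := (Z.card : ℝ) with hn
  have hn0 : 0 < n := by rw [hn]; exact_mod_cast hne.card_pos
  have himg : (univ.image f).card ≤ ⌊1 / δ⌋₊ + 1 := by
    refine le_trans (Nat.le_floor ?_) (Nat.le_succ _)
    rw [le_div_iff₀ hδ]
    have hs1 : ∀ i ∈ univ.image f, δ * n ≤ ((part f i).card : ℝ) := by
      intro i hi
      obtain ⟨v, -, rfl⟩ := mem_image.mp hi
      exact (hd v).trans (sum_le_card (fun u v : {x // x ∈ Z} => a u.1 v.1) (fun u v => h1 _ _) v _)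
    have h2 : ∑ i ∈ univ.image f, ((part f i).card : ℝ) = n := by
      have h3 := card_eq_sum_card_fiberwise (f := f) (s := univ) (t := univ.image f)
        (fun x _ => mem_image_of_mem _ (mem_univ _))
      rw [card_univ, Fintype.card_coe] at h3
      rw [hn, h3]
      push_cast
      rfl
    have h4 : ((univ.image f).card : ℝ) * (δ * n) ≤ n := by
      calc ((univ.image f).card : ℝ) * (δ * n) = ∑ i ∈ univ.image f, δ * n := by simp
        _ ≤ _ := sum_le_sum hs1
        _ = n := h2
    have h5 : ((univ.image f).card : ℝ) * δ * n ≤ 1 * n := by linarith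
    exact le_of_mul_le_mul_right h5 hn0
  obtain ⟨e⟩ : Nonempty ({x // x ∈ univ.image f} ↪ Fin (⌊1 / δ⌋₊ + 1)) :=
    Function.Embedding.nonempty_of_card_le (by rw [Fintype.card_coe, Fintype.card_fin]; exact himg)
  refine ⟨fun v => if h : v ∈ Z then e ⟨f ⟨v, h⟩, mem_image_of_mem _ (mem_univ _)⟩ else 0,
    fun k => ?_⟩
  set P := Z.filter (fun u =>
    (if h : u ∈ Z then e ⟨f ⟨u, h⟩, mem_image_of_mem _ (mem_univ _)⟩ else 0) = k) with hP
  rcases P.eq_empty_or_nonempty with hPe | ⟨v0, hv0⟩
  · rw [hPe]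
    refine ⟨by simp, fun S hS => ?_⟩
    rw [subset_empty] at hS
    subst hS
    simp [wsum]
  obtain ⟨hv0Z, hv0k⟩ := mem_filter.mp hv0
  rw [dif_pos hv0Z] at hv0k
  have hPeq : P = (part f (f ⟨v0, hv0Z⟩)).map (Function.Embedding.subtype _) := by
    ext u
    simp only [hP, mem_filter, Finset.mem_map, mem_part, Function.Embedding.coe_subtype]
    constructor
    · rintro ⟨hu, he⟩
      rw [dif_pos hu, ← hv0k] at he
      exact ⟨⟨u, hu⟩, congrArg Subtype.val (e.injective he), rfl⟩
    · rintro ⟨⟨w, hw⟩, he, rfl⟩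
      exact ⟨hw, by rw [dif_pos hw]; simp only [he]; exact hv0k⟩
  have hPn : (P.card : ℝ) ≤ n := by rw [hn]; exact_mod_cast card_le_card (filter_subset _ _)
  constructor
  · intro v hv
    refine le_trans (mul_le_mul_of_nonneg_left hPn hδ.le) ?_
    rw [hPeq] at hv ⊢
    obtain ⟨w, hw, rfl⟩ := Finset.mem_map.mp hv
    rw [sum_map]
    have := hd w
    rw [(mem_part f _ w).mp hw] at this
    exact this
  · intro S hS
    set S' : Finset {x // x ∈ Z} := (part f (f ⟨v0, hv0Z⟩)).filter (fun w => w.1 ∈ S) with hS'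
    have e1 : S'.map (Function.Embedding.subtype _) = S := by
      ext u
      simp only [hS', Finset.mem_map, mem_filter, Function.Embedding.coe_subtype]
      constructor
      · rintro ⟨w, ⟨-, hw⟩, rfl⟩; exact hw
      · intro hu
        have := hS hu
        rw [hPeq, Finset.mem_map] at this
        obtain ⟨w, hw, hwu⟩ := this
        simp only [Function.Embedding.coe_subtype] at hwu
        exact ⟨w, ⟨hw, by rw [hwu]; exact hu⟩, hwu⟩
    have e2 : (part f (f ⟨v0, hv0Z⟩) \ S').map (Function.Embedding.subtype _) = P \ S := by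
      rw [Finset.map_sdiff, e1, ← hPeq]
    have := hex (f ⟨v0, hv0Z⟩) S' (filter_subset _ _)
    rw [← card_map (Function.Embedding.subtype _), e1,
      ← card_map (Function.Embedding.subtype _) (s := part f (f ⟨v0, hv0Z⟩) \ S'), e2] at this
    have hw : wsum (fun u v : {x // x ∈ Z} => a u.1 v.1) S' (part f (f ⟨v0, hv0Z⟩) \ S') =
        wsum a S (P \ S) := by
      rw [← e2, ← e1]
      simp [wsum, sum_map]
    rw [hw] at this
    refine le_trans (mul_le_mul_of_nonneg_right ?_ (le_min (Nat.cast_nonneg _) (Nat.cast_nonneg _)))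
      this
    exact mul_le_mul_of_nonneg_left hPn hγ.le

open scoped Classical in
/-- A dense piece carries a bounded-degree forest with few components. -/
theorem exists_piece_forest {V : Type} [Fintype V] (a : V → V → ℝ)
    (hs : ∀ u v, a u v = a v u) (hl : ∀ v, a v v = 0) (h0 : ∀ u v, 0 ≤ a u v)
    (h1 : ∀ u v, a u v ≤ 1) (δ : ℝ) (hδ : 0 < δ) (D : ℕ) (hD : 4 ≤ δ * (D : ℝ)) (hD2 : 2 ≤ D)
    (Z : Finset V) (hZ : Z.card ≤ 1 ∨ ∀ v ∈ Z, δ * (Z.card : ℝ) ≤ ∑ u ∈ Z, a v u) :
    ∃ F : SimpleGraph V, (∀ u v, F.Adj u v → u ∈ Z ∧ v ∈ Z ∧ 0 < a u v) ∧ (∀ v, nbr F v ≤ D) ∧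
      ∃ R : Finset V, (R.card : ℝ) ≤ 2 / δ + 1 ∧ ∀ v ∈ Z, ∃ r ∈ R, F.Reachable r v := by
  rcases hZ with hZ | hZ
  · refine ⟨⊥, fun u v h => h.elim, fun v => by simp [nbr], Z, ?_, fun v hv => ⟨v, hv, Reachable.refl v⟩⟩
    have : (Z.card : ℝ) ≤ 1 := by exact_mod_cast hZ
    have : 0 ≤ 2 / δ := by positivity
    linarith
  let H : SimpleGraph {x // x ∈ Z} :=
    { Adj := fun u v => 0 < a u.1 v.1
      symm := ⟨fun u v (h : 0 < a u.1 v.1) => show 0 < a v.1 u.1 from hs u.1 v.1 ▸ h⟩
      loopless := ⟨fun v (h : 0 < a v.1 v.1) => h.ne' (hl v.1)⟩ }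
  have hH : ∀ v, δ * (Fintype.card {x // x ∈ Z} : ℝ) ≤ (nbr H v : ℝ) := by
    intro v
    rw [Fintype.card_coe]
    refine (hZ v.1 v.2).trans ?_
    rw [← sum_coe_sort Z (fun u => a v.1 u)]
    have e : nbr H v = (univ.filter (fun u : {x // x ∈ Z} => 0 < a v.1 u.1)).card := by
      unfold nbr; congr 1
    rw [e, card_filter]
    push_cast
    refine sum_le_sum fun u _ => ?_
    split
    · exact h1 _ _
    · linarith [h0 v.1 u.1]
  obtain ⟨F, hFH, hFd, R, hR, hcov⟩ := exists_bounded_forest H δ hδ D hD hD2 hH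
  refine ⟨F.map (Function.Embedding.subtype _), ?_, ?_, R.map (Function.Embedding.subtype _), ?_, ?_⟩
  · intro u v h
    rw [SimpleGraph.map_adj] at h
    obtain ⟨u', v', h', rfl, rfl⟩ := h
    exact ⟨u'.2, v'.2, hFH h'⟩
  · intro v
    unfold nbr
    by_cases hv : v ∈ Z
    · refine le_trans (le_of_eq ?_) (hFd ⟨v, hv⟩)
      unfold nbr
      rw [← card_map (Function.Embedding.subtype _)
        (s := univ.filter (fun u => F.Adj ⟨v, hv⟩ u))]
      congr 1
      ext u
      rw [Finset.mem_map]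
      simp only [mem_filter, mem_univ, true_and]
      rw [SimpleGraph.map_adj]
      simp only [Function.Embedding.coe_subtype]
      constructor
      · rintro ⟨u', v', h', hu', rfl⟩
        have : u' = ⟨v, hv⟩ := Subtype.ext hu'
        exact ⟨v', this ▸ h', rfl⟩
      · rintro ⟨w, hw, rfl⟩
        exact ⟨⟨v, hv⟩, w, hw, rfl, rfl⟩
    · refine le_trans (le_of_eq (card_eq_zero.mpr (eq_empty_of_forall_notMem fun u h => ?_)))
        (Nat.zero_le _)
      simp only [mem_filter, mem_univ, true_and] at h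
      rw [SimpleGraph.map_adj] at h
      obtain ⟨u', v', -, rfl, -⟩ := h
      exact hv u'.2
  · rw [card_map]; linarith
  · intro v hv
    obtain ⟨r, hr, hrv⟩ := hcov ⟨v, hv⟩
    exact ⟨r.1, mem_map_of_mem _ hr, hrv.map (Embedding.map (Function.Embedding.subtype _) F).toHom⟩

theorem crossCard_forest_le {V : Type} [Fintype V] (F : SimpleGraph V) (Z : Finset V)
    (hF : ∀ u v, F.Adj u v → u ∈ Z ∧ v ∈ Z) (D : ℕ) (hD : ∀ v, nbr F v ≤ D) (S : Finset V)
    [DecidableEq V] :
    crossCard F S ≤ D * min (Z ∩ S).card (Z \ S).card := by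
  classical
  rw [mul_min]
  refine le_min ?_ ?_
  · unfold crossCard
    refine (Set.ncard_le_ncard (t := ↑((Z ∩ S).biUnion (fun u =>
      (univ.filter (fun v => F.Adj u v)).image (fun v => (u, v))))) ?_ (Set.toFinite _)).trans ?_
    · rintro ⟨u, v⟩ ⟨hu, hv, h⟩
      simp only [coe_biUnion, Set.mem_iUnion, Finset.mem_coe]
      exact ⟨u, mem_inter.mpr ⟨(hF u v h).1, hu⟩, mem_image.mpr ⟨v, by simpa using h, rfl⟩⟩
    · rw [Set.ncard_coe_finset]
      refine card_biUnion_le.trans ?_
      rw [mul_comm, ← smul_eq_mul]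
      refine sum_le_card_nsmul _ _ _ fun u _ => card_image_le.trans (hD u)
  · unfold crossCard
    refine (Set.ncard_le_ncard (t := ↑((Z \ S).biUnion (fun v =>
      (univ.filter (fun u => F.Adj v u)).image (fun u => (u, v))))) ?_ (Set.toFinite _)).trans ?_
    · rintro ⟨u, v⟩ ⟨hu, hv, h⟩
      simp only [coe_biUnion, Set.mem_iUnion, Finset.mem_coe]
      exact ⟨v, mem_sdiff.mpr ⟨(hF u v h).2, hv⟩, mem_image.mpr ⟨u, by simpa using h.symm, rfl⟩⟩
    · rw [Set.ncard_coe_finset]
      refine card_biUnion_le.trans ?_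
      rw [mul_comm, ← smul_eq_mul]
      refine sum_le_card_nsmul _ _ _ fun u _ => card_image_le.trans (hD u)

/-- Thin spanning trees when the vertices split into boundedly many dense parts. -/
theorem exists_thin_of_parts (c : ℝ) (hc : 0 < c) (N : ℕ) :
    ∃ C : ℝ, 0 < C ∧ ∀ (V : Type) [Fintype V] [DecidableEq V], 2 ≤ Fintype.card V →
      ∀ a : V → V → ℝ, (∀ u v, a u v = a v u) → (∀ v, a v v = 0) →
        (∀ u v, 0 ≤ a u v) → (∀ u v, a u v ≤ 1) →
      ∀ k : ℝ, 0 < k → (∀ S : Finset V, S.Nonempty → S ≠ univ → k ≤ wsum a S Sᶜ) →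
      ∀ f : V → Fin N, (∀ v, c * (((part f (f v)).card : ℝ) - 1) ≤ ∑ u ∈ part f (f v), a v u) →
        ∃ T : SimpleGraph V, T.IsTree ∧ (∀ u v, T.Adj u v → 0 < a u v) ∧
          ∀ S : Finset V, (crossCard T S : ℝ) * k ≤ C * wsum a S Sᶜ := by
  obtain ⟨δ, γ, J, hδ, hγ, hJ, href⟩ := exists_refined (c / 2) (half_pos hc)
  set D : ℕ := max 2 ⌈4 / δ⌉₊ with hDdef
  have hD2 : 2 ≤ D := le_max_left _ _
  have hD : 4 ≤ δ * (D : ℝ) := by
    have h1 : 4 / δ ≤ (D : ℝ) :=
      (Nat.le_ceil _).trans (by exact_mod_cast le_max_right 2 ⌈4 / δ⌉₊)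
    rw [div_le_iff₀ hδ] at h1
    linarith
  set M : ℕ := N * J + 1 with hM
  set τ : ℝ := 1 / (4 * (M : ℝ) ^ 2) with hτ
  have hτ0 : 0 < τ := by positivity
  have hM1 : (1 : ℝ) ≤ (M : ℝ) := by
    exact_mod_cast (show 1 ≤ M by omega)
  refine ⟨((D : ℝ) + 2) / (γ * τ) + 8 * (M : ℝ) + (M : ℝ) * (2 / δ + 1), by positivity, ?_⟩
  intro V _ _ hn2 a hs hl h0 h1 k hk hcut f hf
  classical
  haveI : Nonempty V := Fintype.card_pos_iff.mp (by omega)
  have hdeg : ∀ v, k ≤ ∑ u, a v u := by
    intro v
    have hne : ({v} : Finset V) ≠ univ := by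
      intro h
      have := congrArg Finset.card h
      simp at this
      omega
    refine (hcut {v} (singleton_nonempty v) hne).trans (le_of_eq ?_)
    rw [wsum, sum_singleton]
    refine sum_subset (subset_univ _) fun x _ hx => ?_
    simp at hx
    subst hx
    exact hl x
  -- the pieces
  have hsplit : ∀ i : Fin N, ∃ g : V → Fin J, 2 ≤ (part f i).card → ∀ l,
      (∀ v ∈ (part f i).filter (fun u => g u = l),
        δ * (((part f i).filter (fun u => g u = l)).card : ℝ) ≤
          ∑ u ∈ (part f i).filter (fun u => g u = l), a v u) ∧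
      ∀ S ⊆ (part f i).filter (fun u => g u = l),
        γ * (((part f i).filter (fun u => g u = l)).card : ℝ) *
          min (S.card : ℝ) (((part f i).filter (fun u => g u = l) \ S).card : ℝ) ≤
            wsum a S ((part f i).filter (fun u => g u = l) \ S) := by
    intro i
    by_cases h2 : 2 ≤ (part f i).card
    · obtain ⟨g, hg⟩ := href V a hs h0 h1 (part f i) (fun v hv => by
        have h2' : (2 : ℝ) ≤ ((part f i).card : ℝ) := by exact_mod_cast h2
        have := hf v
        rw [(mem_part f i v).mp hv] at this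
        nlinarith)
      exact ⟨g, fun _ => hg⟩
    · exact ⟨fun _ => ⟨0, hJ⟩, fun h => absurd h h2⟩
  choose g hg using hsplit
  let h : V → Fin M := fun v => Fin.castSucc (finProdFinEquiv (f v, g (f v) v))
  have hpiece : ∀ i : Fin M, (part h i).card ≤ 1 ∨
      ((∀ v ∈ part h i, δ * ((part h i).card : ℝ) ≤ ∑ u ∈ part h i, a v u) ∧
        ∀ S ⊆ part h i, γ * ((part h i).card : ℝ) *
          min (S.card : ℝ) ((part h i \ S).card : ℝ) ≤ wsum a S (part h i \ S)) := by
    intro i
    rcases (part h i).eq_empty_or_nonempty with he | ⟨v0, hv0⟩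
    · exact Or.inl (by simp [he])
    rw [mem_part] at hv0
    have heq : part h i = (part f (f v0)).filter (fun u => g (f v0) u = g (f v0) v0) := by
      ext u
      simp only [mem_part, mem_filter]
      constructor
      · intro hu
        have := finProdFinEquiv.injective (Fin.castSucc_injective _ (hu.trans hv0.symm))
        simp only [Prod.mk.injEq] at this
        refine ⟨this.1, ?_⟩
        have h2 := this.2
        rwa [this.1] at h2
      · rintro ⟨hu1, hu2⟩
        rw [← hv0]
        simp only [h, hu1, hu2]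
    by_cases h2 : 2 ≤ (part f (f v0)).card
    · rw [heq]
      exact Or.inr (hg _ h2 _)
    · left
      rw [heq]
      exact (card_le_card (filter_subset _ _)).trans (by omega)
  let small : Fin M → Prop := fun i => ((part h i).card : ℝ) < τ * k
  set W : Finset V := univ.filter (fun v => small (h v)) with hWdef
  have hW : (W.card : ℝ) ≤ k / (4 * (M : ℝ)) := by
    have hsub : W ⊆ (univ.filter small).biUnion (fun i => part h i) := fun v hv =>
      mem_biUnion.mpr ⟨h v, mem_filter.mpr ⟨mem_univ _, (mem_filter.mp hv).2⟩,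
        (mem_part h _ v).mpr rfl⟩
    have h1 : (W.card : ℝ) ≤ ∑ i ∈ univ.filter small, ((part h i).card : ℝ) := by
      exact_mod_cast (card_le_card hsub).trans card_biUnion_le
    have h2 : ∑ i ∈ univ.filter small, ((part h i).card : ℝ) ≤ (M : ℝ) * (τ * k) := by
      refine (sum_le_card_nsmul _ _ (τ * k) fun i hi => (mem_filter.mp hi).2.le).trans ?_
      rw [nsmul_eq_mul]
      refine mul_le_mul_of_nonneg_right ?_ (by positivity)
      exact_mod_cast (card_le_univ _).trans (by simp)
    have h3 : (M : ℝ) * (τ * k) = k / (4 * (M : ℝ)) := by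
      rw [hτ]; field_simp
    linarith
  -- the piece receiving a vertex of `W`
  have htarget : ∀ v : V, ∃ i, v ∈ W → ¬ small i ∧ k / (2 * (M : ℝ)) ≤ ∑ u ∈ part h i, a v u := by
    intro v
    by_contra hno
    push Not at hno
    obtain ⟨hvW, -⟩ := hno (h v)
    have hsum : ∑ u, a v u = ∑ i, ∑ u ∈ part h i, a v u :=
      (sum_fiberwise univ h (fun u => a v u)).symm
    rw [← sum_filter_add_sum_filter_not univ small] at hsum
    have e1 : ∑ i ∈ univ.filter small, ∑ u ∈ part h i, a v u ≤ (W.card : ℝ) := by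
      have : ∑ i ∈ univ.filter small, ∑ u ∈ part h i, a v u = ∑ u ∈ W, a v u := by
        rw [← sum_fiberwise_of_maps_to (g := h) (t := univ.filter small) (s := W)
          (fun x hx => mem_filter.mpr ⟨mem_univ _, (mem_filter.mp hx).2⟩) (fun u => a v u)]
        refine sum_congr rfl fun i hi => sum_congr ?_ fun _ _ => rfl
        ext u
        simp only [mem_part, mem_filter, hWdef, mem_univ, true_and]
        exact ⟨fun hu => ⟨hu ▸ (mem_filter.mp hi).2, hu⟩, fun hu => hu.2⟩
      rw [this]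
      exact sum_le_card a h1 v W
    have e2 : ∑ i ∈ univ.filter (fun i => ¬ small i), ∑ u ∈ part h i, a v u ≤
        (M : ℝ) * (k / (2 * (M : ℝ))) := by
      refine (sum_le_card_nsmul _ _ (k / (2 * (M : ℝ))) fun i hi =>
        ((hno i).2 (mem_filter.mp hi).2).le).trans ?_
      rw [nsmul_eq_mul]
      refine mul_le_mul_of_nonneg_right ?_ (by positivity)
      exact_mod_cast (card_le_univ _).trans (by simp)
    have e3 : (M : ℝ) * (k / (2 * (M : ℝ))) = k / 2 := by field_simp
    have e4 : k / (4 * (M : ℝ)) ≤ k / 4 := by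
      apply div_le_div_of_nonneg_left hk.le (by norm_num)
      linarith
    linarith [hdeg v]
  choose tgt htgt using htarget
  let cand : {x // x ∈ W} → Finset V := fun v => (part h (tgt v.1)).filter (fun u => 0 < a v.1 u)
  have hcand : ∀ v, k / (2 * (M : ℝ)) ≤ ((cand v).card : ℝ) := by
    intro v
    refine (htgt v.1 v.2).2.trans ?_
    simp only [cand]
    rw [card_filter]
    push_cast
    refine sum_le_sum fun u _ => ?_
    split
    · exact h1 _ _
    · linarith [h0 v.1 u]
  obtain ⟨φ0, hφinj, hφ0⟩ :=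
    (Finset.all_card_le_biUnion_card_iff_exists_injective cand).mp (fun s => by
      rcases s.eq_empty_or_nonempty with rfl | ⟨v, hv⟩
      · simp
      · have h1 : (cand v).card ≤ (s.biUnion cand).card := card_le_card (subset_biUnion_of_mem _ hv)
        have h2 : s.card ≤ W.card := (card_le_univ _).trans (by simp)
        have h3 : (W.card : ℝ) ≤ ((cand v).card : ℝ) := by
          refine hW.trans (le_trans ?_ (hcand v))
          apply div_le_div_of_nonneg_left hk.le (by positivity)
          linarith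
        have h3' : W.card ≤ (cand v).card := by exact_mod_cast h3
        omega)
  let φ : V → V := fun v => if hv : v ∈ W then φ0 ⟨v, hv⟩ else v
  have hφ : ∀ v ∈ W, φ v ∈ part h (tgt v) ∧ 0 < a v (φ v) := by
    intro v hv
    have := hφ0 ⟨v, hv⟩
    simp only [cand, mem_filter] at this
    simpa [φ, hv] using this
  have hφinjW : Set.InjOn φ W := by
    intro u hu v hv he
    simp only [φ, dif_pos (Finset.mem_coe.mp hu), dif_pos (Finset.mem_coe.mp hv)] at he
    exact congrArg Subtype.val (hφinj he)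
  have hφne : ∀ v ∈ W, φ v ∉ W := by
    intro v hv hc
    have := (mem_filter.mp hc).2
    rw [(mem_part h _ _).mp (hφ v hv).1] at this
    exact (htgt v hv).1 this
  -- forests in the large pieces
  choose F hFmem hFd R hR hcov using fun i => exists_piece_forest a hs hl h0 h1 δ hδ D hD hD2
    (part h i) ((hpiece i).imp id And.left)
  let G : SimpleGraph V :=
    { Adj := fun u v => 0 < a u v
      symm := ⟨fun u v (h : 0 < a u v) => show 0 < a v u from hs u v ▸ h⟩
      loopless := ⟨fun v (h : 0 < a v v) => h.ne' (hl v)⟩ }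
  have hG : G.Connected := by
    refine ⟨fun u v => ?_⟩
    by_contra huv
    set S : Finset V := univ.filter (fun x => G.Reachable u x) with hS
    have hvS : v ∉ S := fun h => huv (mem_filter.mp h).2
    have hpos := hcut S ⟨u, mem_filter.mpr ⟨mem_univ _, SimpleGraph.Reachable.refl u⟩⟩
      (fun h => hvS (h ▸ mem_univ v))
    have hzero : wsum a S Sᶜ ≤ 0 := by
      refine sum_nonpos fun x hx => sum_nonpos fun y hy => ?_
      by_contra hp
      rw [Finset.mem_compl] at hy
      exact hy (mem_filter.mpr ⟨mem_univ _,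
        (mem_filter.mp hx).2.trans (SimpleGraph.Adj.reachable (G := G) (not_le.mp hp))⟩)
    linarith
  let Adj0 : V → V → Prop := fun u v =>
    (∃ i, ¬ small i ∧ (F i).Adj u v) ∨ (u ∈ W ∧ v = φ u) ∨ (v ∈ W ∧ u = φ v)
  let L : SimpleGraph V :=
    { Adj := Adj0
      symm := ⟨fun u v (huv : Adj0 u v) => show Adj0 v u by
        rcases huv with ⟨i, hi, hh⟩ | hh | hh
        · exact Or.inl ⟨i, hi, hh.symm⟩
        · exact Or.inr (Or.inr hh)
        · exact Or.inr (Or.inl hh)⟩
      loopless := ⟨fun v (hvv : Adj0 v v) => by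
        rcases hvv with ⟨i, -, hh⟩ | ⟨hv, he⟩ | ⟨hv, he⟩
        · exact hh.ne rfl
        · exact hφne v hv (he ▸ hv)
        · exact hφne v hv (he ▸ hv)⟩ }
  have hLG : L ≤ G := by
    intro u v huv
    rcases huv with ⟨i, -, hh⟩ | ⟨hv, rfl⟩ | ⟨hv, rfl⟩
    · exact (hFmem i u v hh).2.2
    · exact (hφ u hv).2
    · exact show 0 < a _ v from hs v _ ▸ (hφ v hv).2
  set Rall : Finset V := (univ.filter (fun i => ¬ small i)).biUnion R with hRall
  have hRcard : (Rall.card : ℝ) ≤ (M : ℝ) * (2 / δ + 1) := by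
    have h1 : (Rall.card : ℝ) ≤ ∑ i ∈ univ.filter (fun i => ¬ small i), ((R i).card : ℝ) := by
      exact_mod_cast card_biUnion_le
    refine h1.trans ((sum_le_card_nsmul _ _ (2 / δ + 1) fun i _ => hR i).trans ?_)
    rw [nsmul_eq_mul]
    refine mul_le_mul_of_nonneg_right ?_ (by positivity)
    exact_mod_cast (card_le_univ _).trans (by simp)
  have hbigcov : ∀ v, ¬ small (h v) → ∃ r ∈ Rall, L.Reachable r v := by
    intro v hv
    obtain ⟨r, hr, hrv⟩ := hcov (h v) v ((mem_part h _ v).mpr rfl)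
    refine ⟨r, mem_biUnion.mpr ⟨h v, mem_filter.mpr ⟨mem_univ _, hv⟩, hr⟩, hrv.mono ?_⟩
    exact fun x y hxy => Or.inl ⟨h v, hv, hxy⟩
  have hcover : ∀ v, ∃ r ∈ Rall, L.Reachable r v := by
    intro v
    by_cases hv : small (h v)
    · have hvW : v ∈ W := mem_filter.mpr ⟨mem_univ _, hv⟩
      obtain ⟨r, hr, hrv⟩ := hbigcov (φ v) (fun hc => hφne v hvW (mem_filter.mpr ⟨mem_univ _, hc⟩))
      have hadj : L.Adj (φ v) v := Or.inr (Or.inr ⟨hvW, rfl⟩)
      exact ⟨r, hr, hrv.trans hadj.reachable⟩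
    · exact hbigcov v hv
  obtain ⟨L', hL'G, hL'c, hL'cr⟩ := exists_linked G hG Rall L hLG hcover
  obtain ⟨T, hTL, hT⟩ := hL'c.exists_isTree_le
  refine ⟨T, hT, fun u v huv => hL'G (hTL huv), fun S => ?_⟩
  have hw0 : ∀ A B : Finset V, 0 ≤ wsum a A B := fun A B =>
    sum_nonneg fun u _ => sum_nonneg fun v _ => h0 u v
  by_cases htriv : S.Nonempty ∧ S ≠ univ
  swap
  · have hz : crossCard T S = 0 := by
      unfold crossCard
      rw [Set.ncard_eq_zero (Set.toFinite _)]
      ext e
      simp only [Set.mem_setOf_eq, Set.mem_empty_iff_false, iff_false]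
      rintro ⟨he1, he2, -⟩
      exact htriv ⟨⟨_, he1⟩, fun h => he2 (h ▸ mem_univ _)⟩
    rw [hz, Nat.cast_zero, zero_mul]
    exact mul_nonneg (by positivity) (hw0 _ _)
  obtain ⟨hSne, hSuniv⟩ := htriv
  set cutS : ℝ := wsum a S Sᶜ with hcutS
  let m : Fin M → ℕ := fun i => min (part h i ∩ S).card (part h i \ S).card
  -- the minority sides are paid by the cut
  have hm : (∑ i ∈ univ.filter (fun i => ¬ small i), (m i : ℝ)) * (γ * τ * k) ≤ cutS := by
    have hone : ∀ i ∈ univ.filter (fun i => ¬ small i),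
        (m i : ℝ) * (γ * τ * k) ≤ ∑ u ∈ S.filter (fun u => h u = i), ∑ v ∈ Sᶜ, a u v := by
      intro i hi
      have hbig : τ * k ≤ ((part h i).card : ℝ) := not_lt.mp (mem_filter.mp hi).2
      have hnn : (0 : ℝ) ≤ ∑ u ∈ S.filter (fun u => h u = i), ∑ v ∈ Sᶜ, a u v :=
        sum_nonneg fun u _ => sum_nonneg fun v _ => h0 u v
      rcases hpiece i with h1' | ⟨-, hexp⟩
      · have : m i = 0 := by
          have := card_inter_add_card_sdiff (part h i) S
          simp only [m]
          omega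
        rw [this, Nat.cast_zero, zero_mul]
        exact hnn
      · have he := hexp (part h i ∩ S) inter_subset_left
        rw [sdiff_inter_self_left] at he
        have hmi : (m i : ℝ) =
            min ((part h i ∩ S).card : ℝ) ((part h i \ S).card : ℝ) := by
          simp only [m, Nat.cast_min]
        rw [← hmi] at he
        have hw : wsum a (part h i ∩ S) (part h i \ S) ≤
            ∑ u ∈ S.filter (fun u => h u = i), ∑ v ∈ Sᶜ, a u v := by
          rw [show S.filter (fun u => h u = i) = part h i ∩ S by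
            ext u; simp [mem_part, and_comm]]
          exact sum_le_sum fun u _ => sum_le_sum_of_subset_of_nonneg
            (fun v hv => Finset.mem_compl.mpr (mem_sdiff.mp hv).2) fun v _ _ => h0 u v
        calc (m i : ℝ) * (γ * τ * k) = γ * (τ * k) * (m i : ℝ) := by ring
          _ ≤ γ * ((part h i).card : ℝ) * (m i : ℝ) :=
            mul_le_mul_of_nonneg_right (mul_le_mul_of_nonneg_left hbig hγ.le) (Nat.cast_nonneg _)
          _ ≤ _ := he.trans hw
    rw [sum_mul]
    refine (sum_le_sum hone).trans ?_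
    rw [hcutS, wsum, ← sum_fiberwise S h]
    exact sum_le_sum_of_subset_of_nonneg (subset_univ _) fun i _ _ =>
      sum_nonneg fun u _ => sum_nonneg fun v _ => h0 u v
  set W' : Finset V := W.filter (fun v => ¬ (v ∈ S ↔ φ v ∈ S)) with hW'
  let opp : V → ℝ := fun v => if v ∈ S then ∑ u ∈ Sᶜ, a v u else ∑ u ∈ S, a v u
  have hopp : ∑ v, opp v = 2 * cutS := by
    simp only [opp]
    rw [← sum_add_sum_compl S]
    rw [sum_congr rfl (fun v hv => if_pos hv),
      sum_congr rfl (fun v hv => if_neg (Finset.mem_compl.mp hv))]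
    have := wsum_comm a hs Sᶜ S
    simp only [wsum] at this
    rw [this, hcutS, wsum]
    ring
  have hW'le : (W'.card : ℝ) ≤ 8 * (M : ℝ) * cutS / k +
      2 * ∑ i ∈ univ.filter (fun i => ¬ small i), (m i : ℝ) := by
    rw [← card_filter_add_card_filter_not (s := W') (fun v => k / (4 * (M : ℝ)) ≤ opp v)]
    push_cast
    refine add_le_add ?_ ?_
    · have h1' : ((W'.filter (fun v => k / (4 * (M : ℝ)) ≤ opp v)).card : ℝ) *
          (k / (4 * (M : ℝ))) ≤ 2 * cutS := by
        rw [← hopp, ← nsmul_eq_mul]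
        refine (card_nsmul_le_sum _ _ _ fun v hv => (mem_filter.mp hv).2).trans ?_
        exact sum_le_sum_of_subset_of_nonneg (subset_univ _) fun v _ _ => by
          show 0 ≤ (if v ∈ S then ∑ u ∈ Sᶜ, a v u else ∑ u ∈ S, a v u)
          split <;> exact sum_nonneg fun u _ => h0 _ _
      rw [le_div_iff₀ hk]
      have h2' := mul_le_mul_of_nonneg_right h1' (show (0 : ℝ) ≤ 4 * (M : ℝ) by positivity)
      rw [mul_assoc, div_mul_cancel₀ k (by positivity)] at h2'
      linarith
    · set B := W'.filter (fun v => ¬ k / (4 * (M : ℝ)) ≤ opp v) with hB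
      have hnat : B.card ≤ ∑ i ∈ univ.filter (fun i => ¬ small i), 2 * m i := by
        rw [card_eq_sum_card_fiberwise (f := tgt) (t := univ.filter (fun i => ¬ small i))
          (fun v hv => mem_filter.mpr ⟨mem_univ _,
            (htgt v (mem_filter.mp (mem_filter.mp hv).1).1).1⟩)]
        refine sum_le_sum fun i hi => ?_
        rw [← card_filter_add_card_filter_not (s := B.filter (fun v => tgt v = i)) (fun v => v ∈ S)]
        have hgrp : ∀ v ∈ B.filter (fun v => tgt v = i), v ∈ W ∧ φ v ∈ part h i ∧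
            (¬ (v ∈ S ↔ φ v ∈ S)) ∧
            (v ∈ S → W.card ≤ (part h i ∩ S).card) ∧ (v ∉ S → W.card ≤ (part h i \ S).card) := by
          intro v hv
          obtain ⟨hvB, rfl⟩ := mem_filter.mp hv
          obtain ⟨hvW', hlow⟩ := mem_filter.mp hvB
          obtain ⟨hvW, hdiff⟩ := mem_filter.mp hvW'
          have hsum : k / (2 * (M : ℝ)) ≤ ∑ u ∈ part h (tgt v) ∩ S, a v u +
              ∑ u ∈ part h (tgt v) \ S, a v u := by
            rw [sum_inter_add_sum_sdiff]
            exact (htgt v hvW).2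
          have hq : k / (2 * (M : ℝ)) = k / (4 * (M : ℝ)) + k / (4 * (M : ℝ)) := by
            field_simp; ring
          refine ⟨hvW, (hφ v hvW).1, hdiff, fun hvS => ?_, fun hvS => ?_⟩
          · simp only [opp, if_pos hvS, not_le] at hlow
            have h2 : ∑ u ∈ part h (tgt v) \ S, a v u ≤ ∑ u ∈ Sᶜ, a v u :=
              sum_le_sum_of_subset_of_nonneg
                (fun u hu => Finset.mem_compl.mpr (mem_sdiff.mp hu).2) fun u _ _ => h0 _ _
            have h3 := sum_le_card a h1 v (part h (tgt v) ∩ S)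
            have : (W.card : ℝ) ≤ ((part h (tgt v) ∩ S).card : ℝ) := by linarith
            exact_mod_cast this
          · simp only [opp, if_neg hvS, not_le] at hlow
            have h2 : ∑ u ∈ part h (tgt v) ∩ S, a v u ≤ ∑ u ∈ S, a v u :=
              sum_le_sum_of_subset_of_nonneg inter_subset_right fun u _ _ => h0 _ _
            have h3 := sum_le_card a h1 v (part h (tgt v) \ S)
            have : (W.card : ℝ) ≤ ((part h (tgt v) \ S).card : ℝ) := by linarith
            exact_mod_cast this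
        have hside : ∀ (p : V → Prop) [DecidablePred p] (T1 T2 : Finset V),
            (∀ v ∈ B.filter (fun v => tgt v = i), p v → φ v ∈ T1 ∧ W.card ≤ T2.card) →
            ((B.filter (fun v => tgt v = i)).filter p).card ≤ min T1.card T2.card := by
          intro p _ T1 T2 hp
          rcases ((B.filter (fun v => tgt v = i)).filter p).eq_empty_or_nonempty with he | ⟨v, hv⟩
          · rw [he]; simp
          refine le_min ?_ ?_
          · refine card_le_card_of_injOn φ (fun x hx => ?_) ?_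
            · obtain ⟨hx1, hx2⟩ := mem_filter.mp hx
              exact (hp x hx1 hx2).1
            · exact hφinjW.mono fun x hx => by
                exact Finset.mem_coe.mpr (hgrp x (mem_filter.mp (Finset.mem_coe.mp hx)).1).1
          · obtain ⟨hv1, hv2⟩ := mem_filter.mp hv
            refine le_trans (card_le_card fun x hx => ?_) (hp v hv1 hv2).2
            exact (hgrp x (mem_filter.mp hx).1).1
        have hA := hside (fun v => v ∈ S) (part h i \ S) (part h i ∩ S) fun v hv hvS => by
          obtain ⟨-, hpv, hd, hc1, -⟩ := hgrp v hv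
          exact ⟨mem_sdiff.mpr ⟨hpv, fun hc => hd (iff_of_true hvS hc)⟩, hc1 hvS⟩
        have hB' := hside (fun v => v ∉ S) (part h i ∩ S) (part h i \ S) fun v hv hvS => by
          obtain ⟨-, hpv, hd, -, hc2⟩ := hgrp v hv
          refine ⟨mem_inter.mpr ⟨hpv, ?_⟩, hc2 hvS⟩
          by_contra hc
          exact hd (iff_of_false hvS hc)
        simp only [m]
        rw [min_comm] at hA
        omega
      have : (B.card : ℝ) ≤ ∑ i ∈ univ.filter (fun i => ¬ small i), 2 * (m i : ℝ) := by
        exact_mod_cast hnat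
      rwa [← mul_sum] at this
  have hL : (crossCard L S : ℝ) ≤
      (D : ℝ) * ∑ i ∈ univ.filter (fun i => ¬ small i), (m i : ℝ) + (W'.card : ℝ) := by
    have hsub : {e : V × V | e.1 ∈ S ∧ e.2 ∉ S ∧ L.Adj e.1 e.2} ⊆
        (⋃ i ∈ univ.filter (fun i => ¬ small i),
          {e : V × V | e.1 ∈ S ∧ e.2 ∉ S ∧ (F i).Adj e.1 e.2}) ∪
        ↑(W'.image (fun v => if v ∈ S then (v, φ v) else (φ v, v))) := by
      rintro ⟨u, v⟩ ⟨hu, hv, huv⟩
      rcases huv with ⟨i, hi, hh⟩ | ⟨hw, he⟩ | ⟨hw, he⟩
      · left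
        simp only [Set.mem_iUnion]
        exact ⟨i, mem_filter.mpr ⟨mem_univ _, hi⟩, hu, hv, hh⟩
      · right
        simp only at he
        subst he
        refine Finset.mem_coe.mpr (mem_image.mpr ⟨u, mem_filter.mpr ⟨hw, fun hc => hv (hc.mp hu)⟩, ?_⟩)
        rw [if_pos hu]
      · right
        simp only at he
        subst he
        refine Finset.mem_coe.mpr (mem_image.mpr ⟨v, mem_filter.mpr ⟨hw, fun hc => hv (hc.mpr hu)⟩, ?_⟩)
        rw [if_neg hv]
    have hnat : crossCard L S ≤
        (∑ i ∈ univ.filter (fun i => ¬ small i), D * m i) + W'.card := by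
      refine ((Set.ncard_le_ncard hsub (Set.toFinite _)).trans (Set.ncard_union_le _ _)).trans ?_
      refine add_le_add ?_ ?_
      · refine (Finset.set_ncard_biUnion_le _ _).trans (sum_le_sum fun i _ => ?_)
        exact crossCard_forest_le (F i) (part h i)
          (fun u v huv => ⟨(hFmem i u v huv).1, (hFmem i u v huv).2.1⟩) D (hFd i) S
      · rw [Set.ncard_coe_finset]
        exact card_image_le
    have : (crossCard L S : ℝ) ≤
        (∑ i ∈ univ.filter (fun i => ¬ small i), (D : ℝ) * (m i : ℝ)) + (W'.card : ℝ) := by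
      exact_mod_cast hnat
    rwa [← mul_sum] at this
  have hT' : (crossCard T S : ℝ) ≤ (crossCard L S : ℝ) + (Rall.card : ℝ) := by
    exact_mod_cast (crossCard_mono hTL S).trans (hL'cr S)
  set sm : ℝ := ∑ i ∈ univ.filter (fun i => ¬ small i), (m i : ℝ) with hsm
  have hkcut := hcut S hSne hSuniv
  have t1 : sm * k ≤ cutS / (γ * τ) := by
    rw [le_div_iff₀ (by positivity)]
    linarith
  have t2 : (W'.card : ℝ) * k ≤ 8 * (M : ℝ) * cutS + 2 * sm * k := by
    have := mul_le_mul_of_nonneg_right hW'le hk.le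
    rw [add_mul, div_mul_cancel₀ _ hk.ne'] at this
    linarith
  have t3 : (Rall.card : ℝ) * k ≤ (M : ℝ) * (2 / δ + 1) * cutS :=
    mul_le_mul hRcard hkcut hk.le (by positivity)
  have t4 : ((D : ℝ) + 2) * (sm * k) ≤ ((D : ℝ) + 2) * (cutS / (γ * τ)) :=
    mul_le_mul_of_nonneg_left t1 (by positivity)
  have t5 : (crossCard T S : ℝ) * k ≤
      ((D : ℝ) * sm + (W'.card : ℝ) + (Rall.card : ℝ)) * k :=
    mul_le_mul_of_nonneg_right (by linarith) hk.le
  have t6 : ((D : ℝ) + 2) * (cutS / (γ * τ)) = ((D : ℝ) + 2) / (γ * τ) * cutS := by ring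
  linarith

end Vale.Agent.P061
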